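import Vale.Agent.P022D.L2.Defs

/-!
# P022, block L2: rows CPT and EV
-/

set_option linter.all false

noncomputable section

namespace Vale.Agent.P022D.L2

open Filter IsLocalRing

theorem cpt : CptS := by
  intro B _ _ _ _ _ U x
  have hf : ∀ k : ℕ, Finite (B ⧸ maximalIdeal B ^ k) := fun k =>
    haveI : Finite (B ⧸ maximalIdeal B) := inferInstanceAs (Finite (ResidueField B))
    Ideal.finite_quotient_pow (IsNoetherian.noetherian _) k
  have h1 : ∀ k : ℕ, ∃ y : B, ∀ᶠ w in (U : Filter Wd), x w - y ∈ maximalIdeal B ^ k := by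
    intro k
    haveI := hf k
    obtain ⟨c, hc⟩ := Ultrafilter.eq_pure_of_finite
      (U.map fun w => Ideal.Quotient.mk (maximalIdeal B ^ k) (x w))
    obtain ⟨y, rfl⟩ := Ideal.Quotient.mk_surjective c
    refine ⟨y, ?_⟩
    have : {Ideal.Quotient.mk (maximalIdeal B ^ k) y} ∈
        U.map fun w => Ideal.Quotient.mk (maximalIdeal B ^ k) (x w) := by
      rw [hc]; exact Ultrafilter.mem_pure.2 rfl
    filter_upwards [Ultrafilter.mem_map.1 this] with w hw
    exact Ideal.Quotient.eq.1 hw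
  choose y hy using h1
  obtain ⟨L, hL⟩ := IsPrecomplete.prec (inferInstance : IsPrecomplete (maximalIdeal B) B) (f := y)
    (fun {m n} hmn => by
      obtain ⟨w, h1, h2⟩ := ((hy m).and (hy n)).exists
      rw [SModEq.sub_mem, smul_eq_mul, Ideal.mul_top]
      have := Ideal.sub_mem _ (Ideal.pow_le_pow_right hmn h2) h1
      rwa [show x w - y n - (x w - y m) = y m - y n by ring] at this)
  refine ⟨L, fun k => ?_⟩
  filter_upwards [hy k] with w hw
  have h2 := hL k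
  rw [SModEq.sub_mem, smul_eq_mul, Ideal.mul_top] at h2
  have := Ideal.add_mem _ hw h2
  rwa [show x w - y k + (y k - L) = x w - L by ring] at this

namespace Ev

theorem sq_step {A : Type} [CommRing A] (m : Ideal A) (h2 : (2 : A) ∈ m) (j : ℕ)
    (N : Matrix (Fin 2) (Fin 2) A) (h : ∀ p q, (N - 1) p q ∈ m ^ (j + 1)) :
    ∀ p q, (N * N - 1) p q ∈ m ^ (j + 2) := by
  intro p q
  have e : N * N - 1 = (N - 1) * (N - 1) + (2 : A) • (N - 1) := by
    rw [two_smul]; noncomm_ring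
  have h1 : ∀ p q, (N - 1) p q ∈ m := fun p q => Ideal.pow_le_self (Nat.succ_ne_zero j) (h p q)
  rw [e, Matrix.add_apply, Matrix.mul_apply, Matrix.smul_apply, smul_eq_mul, pow_succ' m (j + 1)]
  exact Ideal.add_mem _ (Ideal.sum_mem _ fun i _ => Ideal.mul_mem_mul (h1 _ _) (h _ _))
    (Ideal.mul_mem_mul h2 (h _ _))

theorem first {A : Type} [CommRing A] (m : Ideal A) (h2 : (2 : A) ∈ m)
    (N : Matrix (Fin 2) (Fin 2) A) (a : N 0 0 - 1 ∈ m) (b : N 1 0 ∈ m) (c : N 1 1 - 1 ∈ m) :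
    ∀ p q, (N * N - 1) p q ∈ m := by
  have s : N 0 0 + N 1 1 ∈ m := by
    have := m.add_mem (m.add_mem a c) h2
    rwa [show N 0 0 - 1 + (N 1 1 - 1) + 2 = N 0 0 + N 1 1 by ring] at this
  have e00 : (N * N - 1) 0 0 = (N 0 0 + 1) * (N 0 0 - 1) + N 0 1 * N 1 0 := by
    simp [Matrix.mul_apply, Fin.sum_univ_two]; ring
  have e01 : (N * N - 1) 0 1 = N 0 1 * (N 0 0 + N 1 1) := by
    simp [Matrix.mul_apply, Fin.sum_univ_two]; ring
  have e10 : (N * N - 1) 1 0 = N 1 0 * (N 0 0 + N 1 1) := by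
    simp [Matrix.mul_apply, Fin.sum_univ_two]; ring
  have e11 : (N * N - 1) 1 1 = (N 1 1 + 1) * (N 1 1 - 1) + N 0 1 * N 1 0 := by
    simp [Matrix.mul_apply, Fin.sum_univ_two]; ring
  rw [Fin.forall_fin_two, Fin.forall_fin_two, Fin.forall_fin_two, e00, e01, e10, e11]
  exact ⟨⟨m.add_mem (m.mul_mem_left _ a) (m.mul_mem_left _ b), m.mul_mem_left _ s⟩,
    m.mul_mem_left _ s, m.add_mem (m.mul_mem_left _ c) (m.mul_mem_left _ b)⟩

theorem pw {A : Type} [CommRing A] (m : Ideal A) (h2 : (2 : A) ∈ m)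
    (N : Matrix (Fin 2) (Fin 2) A) (a : N 0 0 - 1 ∈ m) (b : N 1 0 ∈ m) (c : N 1 1 - 1 ∈ m)
    (j : ℕ) : ∀ p q, (N ^ 2 ^ (j + 1) - 1 : Matrix (Fin 2) (Fin 2) A) p q ∈ m ^ (j + 1) := by
  induction j with
  | zero => simpa [sq] using first m h2 N a b c
  | succ j ih =>
    rw [pow_succ 2 (j + 1), pow_mul, sq]
    exact sq_step m h2 j _ ih

theorem map_ev {R A : Type} [CommRing R] [CommRing A] (φ : R →+* A)
    (X : Fin 3 → Matrix (Fin 2) (Fin 2) R) (w : Wd) :
    (ev X w).map φ = ev (fun i => (X i).map φ) w := by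
  induction w with
  | nil => simp [ev]
  | cons i w ih =>
    simp only [ev, List.map_cons, List.prod_cons] at ih ⊢
    rw [Matrix.map_mul, ih]

end Ev

theorem evs : EvS := by
  intro G _ _ g U hH A _ _ hn h2 ρ ho hu
  obtain ⟨k, hk⟩ := hn
  have hk' : maximalIdeal A ^ (k + 1) = ⊥ := by rw [pow_succ, hk]; simp
  have hT : Two ρ := ⟨ho, fun x => ⟨k + 1, by
    have := Ev.pw _ h2 (ρ x) (hu x).1 (hu x).2.1 (hu x).2.2 k
    rw [hk'] at this
    exact sub_eq_zero.1 (Matrix.ext fun p q => by simpa using this p q)⟩⟩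
  obtain ⟨h1, h3⟩ := hH _ ρ hT
  refine ⟨h3, fun R _ _ X Z hZ φ hφ hX => Matrix.ext fun p q => ?_⟩
  obtain ⟨w, e1, e2⟩ := (h1.and (hZ p q (k + 1))).exists
  have m1 : (maximalIdeal R).map φ ≤ maximalIdeal A :=
    Ideal.map_le_iff_le_comap.2 fun x hx => hφ x hx
  have e3 : φ (ev X w p q - Z p q) ∈ maximalIdeal A ^ (k + 1) := by
    have := Ideal.mem_map_of_mem φ e2
    rw [Ideal.map_pow] at this
    exact Ideal.pow_right_mono m1 _ this
  rw [hk', Ideal.mem_bot, map_sub, sub_eq_zero] at e3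
  have e4 := congr_fun (congr_fun (Ev.map_ev φ X w) p) q
  simp only [hX, e1] at e4
  rw [Matrix.map_apply, ← e3, ← e4, Matrix.map_apply]

end Vale.Agent.P022D.L2
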