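import Vale.Agent.P022D.L2.Defs

/-!
# P022, block L2: the Jacobian at a point of characteristic two
-/

set_option linter.all false

noncomputable section

namespace Vale.Agent.P022D.L2

open Filter IsLocalRing Matrix

namespace Pt

section lim

variable {ι B : Type} [CommRing B] {m : Ideal B} {U : Filter ι} {x x' : ι → B} {y y' : B}

theorem lconst (y : B) : Lim m U (fun _ => y) y := fun k => .of_forall fun w => by simp

theorem ladd (h : Lim m U x y) (h' : Lim m U x' y') : Lim m U (fun w => x w + x' w) (y + y') :=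
  fun k => ((h k).and (h' k)).mono fun w e => by
    have : x w + x' w - (y + y') = (x w - y) + (x' w - y') := by ring
    rw [this]
    exact add_mem e.1 e.2

theorem lmul (h : Lim m U x y) (h' : Lim m U x' y') : Lim m U (fun w => x w * x' w) (y * y') :=
  fun k => ((h k).and (h' k)).mono fun w e => by
    have : x w * x' w - y * y' = x' w * (x w - y) + y * (x' w - y') := by ring
    rw [this]
    exact add_mem (Ideal.mul_mem_left _ _ e.1) (Ideal.mul_mem_left _ _ e.2)

theorem lsub (h : Lim m U x y) (h' : Lim m U x' y') : Lim m U (fun w => x w - x' w) (y - y') :=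
  fun k => ((h k).and (h' k)).mono fun w e => by
    have : x w - x' w - (y - y') = (x w - y) - (x' w - y') := by ring
    rw [this]
    exact sub_mem e.1 e.2

theorem lcongr (h : Lim m U x y) (e : ∀ w, x' w = x w) (e' : y' = y) : Lim m U x' y' := by
  rw [funext e, e']
  exact h

theorem luniq [IsLocalRing B] [IsNoetherianRing B] [U.NeBot] (h : Lim (maximalIdeal B) U x y)
    (e : ∀ w, x w = y') : y = y' := by
  have k : y' - y ∈ ⨅ k : ℕ, maximalIdeal B ^ k := by
    refine Ideal.mem_iInf.2 fun k => ?_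
    obtain ⟨w, hw⟩ := (h k).exists
    rwa [e] at hw
  rw [Ideal.iInf_pow_eq_bot_of_isLocalRing _ (maximalIdeal.isMaximal B).ne_top] at k
  exact (sub_eq_zero.1 k).symm

end lim

section der

variable {R B : Type} [CommRing R] [CommRing B] {φ : R →+* B} {m : Ideal R} {n : Ideal B}

theorem map_pw (hφ : ∀ x ∈ m, φ x ∈ n) (k : ℕ) {x : R} (hx : x ∈ m ^ k) : φ x ∈ n ^ k :=
  Ideal.le_comap_pow φ k (Ideal.pow_right_mono (J := n.comap φ) hφ k hx)

/-- derivations along `φ` -/
def Dr (φ : R →+* B) (δ : R →+ B) : Prop := ∀ x y, δ (x * y) = φ x * δ y + φ y * δ x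

variable {δ : R →+ B}

theorem der_pw (h : Dr φ δ) (hφ : ∀ x ∈ m, φ x ∈ n) (k : ℕ) :
    ∀ x ∈ m ^ (k + 1), δ x ∈ n ^ k := by
  induction k with
  | zero => intro x _; simp
  | succ k ih =>
    intro x hx
    rw [pow_succ] at hx
    refine Submodule.mul_induction_on hx (fun a ha b hb => ?_) fun a b ha hb => ?_
    · rw [h]
      refine add_mem (Ideal.mul_mem_right _ _ (map_pw hφ _ ha)) ?_
      rw [pow_succ']
      exact Ideal.mul_mem_mul (hφ b hb) (ih a ha)
    · rw [map_add]
      exact add_mem ha hb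

theorem lmap {ι : Type} {U : Filter ι} {x : ι → R} {y : R} (hφ : ∀ x ∈ m, φ x ∈ n)
    (h : Lim m U x y) : Lim n U (fun w => φ (x w)) (φ y) := fun k => (h k).mono fun w e => by
  rw [← map_sub]
  exact map_pw hφ k e

theorem lder {ι : Type} {U : Filter ι} {x : ι → R} {y : R} (hδ : Dr φ δ) (hφ : ∀ x ∈ m, φ x ∈ n)
    (h : Lim m U x y) : Lim n U (fun w => δ (x w)) (δ y) := fun k => (h (k + 1)).mono fun w e => by
  rw [← map_sub]
  exact der_pw hδ hφ k _ e

theorem der_one (h : Dr φ δ) : δ 1 = 0 := by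
  have := h 1 1
  rw [mul_one, map_one φ, one_mul] at this
  exact left_eq_add.1 this

theorem der_mul (h : Dr φ δ) (A C : Matrix (Fin 2) (Fin 2) R) :
    (A * C).map δ = A.map δ * C.map φ + A.map φ * C.map δ := by
  ext p q
  simp only [map_apply, mul_apply, Fin.sum_univ_two, map_add, h _ _, Matrix.add_apply]
  ring

theorem der_det (h : Dr φ δ) (A : Matrix (Fin 2) (Fin 2) R) :
    δ A.det = (A.map δ * (A.map φ).adjugate).trace := by
  rw [det_fin_two, map_sub, h, h, adjugate_fin_two, trace_fin_two]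
  simp [mul_apply, Fin.sum_univ_two]
  ring

theorem ev_cons {M : Type} [Monoid M] (X : Fin 3 → M) (i : Fin 3) (w : Wd) :
    ev X (i :: w) = X i * ev X w := by simp [ev]

theorem ev_map (X : Fin 3 → Matrix (Fin 2) (Fin 2) R) (w : Wd) :
    (ev X w).map φ = ev (fun i => (X i).map φ) w := by
  induction w with
  | nil => simp [ev]
  | cons i w ih => rw [ev_cons, ev_cons, Matrix.map_mul, ih]

theorem ev_det {X : Fin 3 → Matrix (Fin 2) (Fin 2) B} (h : ∀ i, (X i).det = 1) (w : Wd) :
    (ev X w).det = 1 := by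
  induction w with
  | nil => simp [ev]
  | cons i w ih => rw [ev_cons, det_mul, h, ih, mul_one]

theorem ev_der (h : Dr φ δ) {X : Fin 3 → Matrix (Fin 2) (Fin 2) R}
    (h1 : ∀ i, ((X i).map φ).det = 1) {Y : Fin 3 → Matrix (Fin 2) (Fin 2) B}
    (hY : ∀ i, (X i).map δ = Y i * (X i).map φ) (w : Wd) :
    (ev X w).map δ = dw (fun i => (X i).map φ) Y w * (ev X w).map φ := by
  induction w with
  | nil =>
    ext p q
    by_cases e : p = q <;> simp [ev, dw, one_apply, e, der_one h]
  | cons i w ih =>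
    have a : ((X i).map φ).adjugate * (X i).map φ = 1 := by rw [adjugate_mul, h1, one_smul]
    rw [ev_cons, der_mul h, ih, hY, Matrix.map_mul, dw, add_mul]
    simp only [Matrix.mul_assoc]
    rw [← Matrix.mul_assoc ((X i).map φ).adjugate, a, Matrix.one_mul]

theorem dw_eq (h : Dr φ δ) {X : Fin 3 → Matrix (Fin 2) (Fin 2) R}
    (h1 : ∀ i, ((X i).map φ).det = 1) {Y : Fin 3 → Matrix (Fin 2) (Fin 2) B}
    (hY : ∀ i, (X i).map δ = Y i * (X i).map φ) (w : Wd) :
    dw (fun i => (X i).map φ) Y w = (ev X w).map δ * ((ev X w).map φ).adjugate := by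
  rw [ev_der h h1 hY, Matrix.mul_assoc, mul_adjugate, ev_map, ev_det h1, one_smul, Matrix.mul_one]

/-- a combination of the coordinate derivations -/
def cmb (φ : R →+* B) (D : Fin 3 → Fin 2 → Fin 2 → R →+ R) (c : Fin 3 → Matrix (Fin 2) (Fin 2) B) :
    R →+ B where
  toFun x := ∑ i, ∑ p, ∑ q, c i p q * φ (D i p q x)
  map_zero' := by simp
  map_add' x y := by simp only [map_add, mul_add, Finset.sum_add_distrib]

theorem cmb_app (D : Fin 3 → Fin 2 → Fin 2 → R →+ R) (c : Fin 3 → Matrix (Fin 2) (Fin 2) B)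
    (x : R) : cmb φ D c x = ∑ i, ∑ p, ∑ q, c i p q * φ (D i p q x) := rfl

theorem cmb_dr {D : Fin 3 → Fin 2 → Fin 2 → R →+ R}
    (hD : ∀ i p q x y, D i p q (x * y) = x * D i p q y + y * D i p q x)
    (c : Fin 3 → Matrix (Fin 2) (Fin 2) B) : Dr φ (cmb φ D c) := fun x y => by
  simp only [cmb_app, hD, map_add, map_mul, Finset.mul_sum, ← Finset.sum_add_distrib]
  refine Finset.sum_congr rfl fun i _ => Finset.sum_congr rfl fun p _ =>
    Finset.sum_congr rfl fun q _ => by ring

theorem cmb_X {D : Fin 3 → Fin 2 → Fin 2 → R →+ R} {X : Fin 3 → Matrix (Fin 2) (Fin 2) R}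
    (hX : ∀ i p q i' p' q', D i p q (X i' p' q') = if i = i' ∧ p = p' ∧ q = q' then 1 else 0)
    (c : Fin 3 → Matrix (Fin 2) (Fin 2) B) (i : Fin 3) : (X i).map (cmb φ D c) = c i := by
  ext p q
  rw [map_apply, cmb_app, Finset.sum_eq_single i, Finset.sum_eq_single p, Finset.sum_eq_single q]
  · simp [hX]
  · intro b _ hb; simp [hX, hb]
  · simp
  · intro b _ hb; simp [hX, hb]
  · simp
  · intro b _ hb; simp [hX, hb]
  · simp

theorem cmb_rel {D : Fin 3 → Fin 2 → Fin 2 → R →+ R} (c : Fin 3 → Matrix (Fin 2) (Fin 2) B)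
    {μ l : Fin 3 → B} {d : Fin 3 → R} {z₀ z₁ z₂ : R}
    (h : ∀ i p q, ∑ i', μ i' * φ (D i p q (d i')) +
      (l 0 * φ (D i p q z₀) + l 1 * φ (D i p q z₁) + l 2 * φ (D i p q z₂)) = 0) :
    ∑ i', μ i' * cmb φ D c (d i') +
      (l 0 * cmb φ D c z₀ + l 1 * cmb φ D c z₁ + l 2 * cmb φ D c z₂) = 0 := by
  have e : ∑ i, ∑ p, ∑ q, c i p q * (∑ i', μ i' * φ (D i p q (d i')) +
      (l 0 * φ (D i p q z₀) + l 1 * φ (D i p q z₁) + l 2 * φ (D i p q z₂))) = 0 := by
    simp only [h, mul_zero, Finset.sum_const_zero]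
  rw [← e]
  simp only [cmb_app, Fin.sum_univ_three, Fin.sum_univ_two]
  ring

end der

end Pt

open Pt

theorem ptS (hF : FoxS) (hS : SngS) : PtS := by
  intro U hU R _ _ X Z hZ D hD hX B _ _ _ _ _ hB φ hφ hu z0 z1 z2 K _ _ _
  refine or_iff_not_imp_left.2 fun hn => ?_
  push Not at hn
  obtain ⟨μ, l, hr, hne⟩ := hn
  have inj := IsFractionRing.injective B K
  obtain ⟨s, hs⟩ := IsLocalization.exist_integer_multiples_of_finite (nonZeroDivisors B)
    (Sum.elim μ l : Fin 3 ⊕ Fin 3 → K)
  choose ν hν using hs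
  have s0 : algebraMap B K s ≠ 0 := IsFractionRing.to_map_ne_zero_of_mem_nonZeroDivisors s.2
  have hμ : ∀ i, algebraMap B K (ν (.inl i)) = algebraMap B K s * μ i := fun i => by
    rw [hν, Algebra.smul_def]; rfl
  have hl : ∀ i, algebraMap B K (ν (.inr i)) = algebraMap B K s * l i := fun i => by
    rw [hν, Algebra.smul_def]; rfl
  have hr' : ∀ i p q, ∑ i', ν (.inl i') * φ (D i p q (X i').det) +
      (ν (.inr 0) * φ (D i p q (Z 0 0)) + ν (.inr 1) * φ (D i p q (Z 0 1)) +
        ν (.inr 2) * φ (D i p q (Z 1 0))) = 0 := fun i p q => by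
    apply inj
    have := congrArg (algebraMap B K s * ·) (hr i p q)
    simp only [Fin.sum_univ_three, map_add, map_mul, hμ, hl, map_zero] at this ⊢
    linear_combination this
  have h1 : ∀ i, ((X i).map φ).det = 1 := fun i => (hu i).1
  have lE := fun p q => lmap hφ (hZ p q)
  have z3 : φ (Z 1 1) = 1 := by
    have := luniq (lsub (lmul (lE 0 0) (lE 1 1)) (lmul (lE 0 1) (lE 1 0))) (y' := 1) fun w => by
      have := ev_det h1 w
      rw [← ev_map, det_fin_two] at this
      exact this
    rwa [z0, z1, one_mul, zero_mul, sub_zero] at this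
  have key : ∀ Y : Fin 3 → Matrix (Fin 2) (Fin 2) B,
      Lim (maximalIdeal B) U (fun w => (!![ν (.inr 0), ν (.inr 2); ν (.inr 1), 0] *
        dw (fun i => (X i).map φ) Y w).trace) (∑ i, ν (.inl i) * (Y i).trace) := fun Y => by
    have hδ : Dr φ (cmb φ D fun i => Y i * (X i).map φ) := cmb_dr hD _
    have hY := cmb_X (φ := φ) hX fun i => Y i * (X i).map φ
    have rel := cmb_rel (φ := φ) (D := D) (fun i => Y i * (X i).map φ)
      (μ := fun i => ν (.inl i)) (l := fun i => ν (.inr i)) (d := fun i => (X i).det) hr'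
    generalize (cmb φ D fun i => Y i * (X i).map φ) = δ at hδ hY rel
    have hd : ∀ i, δ (X i).det = (Y i).trace := fun i => by
      rw [der_det hδ, hY, Matrix.mul_assoc, mul_adjugate, h1, one_smul, Matrix.mul_one]
    have lA := fun p q => lder hδ hφ (hZ p q)
    refine lcongr (ladd (ladd
      (lmul (lconst (ν (.inr 0))) (lsub (lmul (lA 0 0) (lE 1 1)) (lmul (lA 0 1) (lE 1 0))))
      (lmul (lconst (ν (.inr 1))) (lsub (lmul (lA 0 1) (lE 0 0)) (lmul (lA 0 0) (lE 0 1)))))
      (lmul (lconst (ν (.inr 2))) (lsub (lmul (lA 1 0) (lE 1 1)) (lmul (lA 1 1) (lE 1 0)))))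
      (fun w => ?_) ?_
    · rw [dw_eq hδ h1 hY, adjugate_fin_two, trace_fin_two]
      simp [mul_apply, Fin.sum_univ_two]
      ring
    · simp only [hd] at rel
      have two : (2 : B) = 0 := by exact_mod_cast CharP.cast_eq_zero B 2
      rw [z0, z1, z2, z3]
      linear_combination (-1 : B) * rel + (∑ i, ν (.inl i) * (Y i).trace) * two
  by_cases hN : !![ν (.inr 0), ν (.inr 2); ν (.inr 1), 0] = 0
  · exfalso
    have m0 : ∀ i, ν (.inl i) = 0 := fun i => by
      have := luniq (key (Pi.single i !![1, 0; 0, 0])) (y' := 0) fun w => by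
        rw [hN, Matrix.zero_mul, trace_zero]
      rw [Finset.sum_eq_single i] at this
      · simpa [trace_fin_two] using this
      · intro b _ hb; simp [Pi.single_eq_of_ne hb]
      · simp
    have l0 : ∀ i, ν (.inr i) = 0 := fun i => by
      fin_cases i
      · simpa using congrFun (congrFun hN 0) 0
      · simpa using congrFun (congrFun hN 1) 0
      · simpa using congrFun (congrFun hN 0) 1
    refine hne (funext fun i => ?_) (funext fun i => ?_)
    · have := hμ i
      rw [m0, map_zero] at this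
      exact (mul_eq_zero.1 this.symm).resolve_left s0
    · have := hl i
      rw [l0, map_zero] at this
      exact (mul_eq_zero.1 this.symm).resolve_left s0
  · refine hS U hU B hB K inj (fun i => (X i).map φ) h1 (fun p q => ?_) _ hN (by simp)
      (hF U hU B _ hu _ _ key)
    refine lcongr (lE p q) (fun w => by rw [← ev_map]; rfl) ?_
    fin_cases p <;> fin_cases q <;> simp [z0, z1, z2, z3]

end Vale.Agent.P022D.L2
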