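import Vale.Agent.P022D.L2.SngA

/-! # P022, block L2: the singular locus has codimension two -/

set_option linter.all false

noncomputable section

namespace Vale.Agent.P022D.L2

open Filter IsLocalRing Matrix

namespace Sng

variable {B : Type} [CommRing B]

/-- entrywise limits -/
def ML [IsLocalRing B] (U : Filter Wd) (x : Wd → Matrix (Fin 2) (Fin 2) B)
    (y : Matrix (Fin 2) (Fin 2) B) : Prop :=
  ∀ p q, Lim (maximalIdeal B) U (fun w => x w p q) (y p q)

section ml

variable [IsLocalRing B] {U : Filter Wd} {x x' : Wd → Matrix (Fin 2) (Fin 2) B}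
  {y y' : Matrix (Fin 2) (Fin 2) B}

theorem ML.const (y : Matrix (Fin 2) (Fin 2) B) : ML U (fun _ => y) y := fun _ _ => Pt.lconst _

theorem ML.mul (h : ML U x y) (h' : ML U x' y') : ML U (fun w => x w * x' w) (y * y') :=
  fun p q => by
    simp only [mul_apply, Fin.sum_univ_two]
    exact Pt.ladd (Pt.lmul (h _ _) (h' _ _)) (Pt.lmul (h _ _) (h' _ _))

theorem ML.pow (h : ML U x y) (n : ℕ) : ML U (fun w => x w ^ n) (y ^ n) := by
  induction n with
  | zero => simpa using ML.const 1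
  | succ n ih => simpa only [pow_succ] using ih.mul h

theorem ML.uniq [IsNoetherianRing B] [U.NeBot] (h : ML U x y) (h' : ML U x' y')
    (e : ∀ᶠ w in U, x w = x' w) : y = y' := by
  ext p q
  have h1 : Lim (maximalIdeal B) U (fun _ => (0 : B)) (y p q - y' p q) := fun k =>
    (((Pt.lsub (h p q) (h' p q)) k).and e).mono fun w hw => by
      have : x w p q - x' w p q - (y p q - y' p q) ∈ maximalIdeal B ^ k := hw.1
      rwa [hw.2, sub_self] at this
  exact sub_eq_zero.1 (Pt.luniq h1 fun _ => rfl)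

theorem ML.det [IsNoetherianRing B] [U.NeBot] (h : ML U x y) (e : ∀ w, (x w).det = 1) :
    y.det = 1 := by
  rw [det_fin_two]
  exact Pt.luniq (Pt.lsub (Pt.lmul (h 0 0) (h 1 1)) (Pt.lmul (h 0 1) (h 1 0))) fun w => by
    rw [← det_fin_two, e]

end ml

theorem ent {Y Z : Matrix (Fin 2) (Fin 2) B} (h : Y = Z) (p q : Fin 2) : Y p q = Z p q := by
  rw [h]

theorem ext2 {Y Z : Matrix (Fin 2) (Fin 2) B} (a : Y 0 0 = Z 0 0) (b : Y 0 1 = Z 0 1)
    (c : Y 1 0 = Z 1 0) (d : Y 1 1 = Z 1 1) : Y = Z := by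
  ext p q
  fin_cases p <;> fin_cases q <;> assumption

theorem adj (X : Matrix (Fin 2) (Fin 2) B) : X.adjugate 0 0 = X 1 1 ∧ X.adjugate 0 1 = -X 0 1 ∧
    X.adjugate 1 0 = -X 1 0 ∧ X.adjugate 1 1 = X 0 0 := by
  simp [adjugate_fin_two]

/-- the entries of the twisted commutation relation -/
theorem tw {X N : Matrix (Fin 2) (Fin 2) B} {c : B} (hN : N 1 1 = 0)
    (h : X * N = (N + c • (1 : Matrix (Fin 2) (Fin 2) B)) * X) :
    X 0 1 * N 1 0 = c * X 0 0 + N 0 1 * X 1 0 ∧
    X 0 0 * N 0 1 = (N 0 0 + c) * X 0 1 + N 0 1 * X 1 1 ∧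
    X 1 0 * N 0 0 + X 1 1 * N 1 0 = N 1 0 * X 0 0 + c * X 1 0 ∧
    X 1 0 * N 0 1 = N 1 0 * X 0 1 + c * X 1 1 := by
  have a := ent h 0 0
  have b := ent h 0 1
  have d := ent h 1 0
  have e := ent h 1 1
  simp only [mul_apply, Fin.sum_univ_two, Matrix.add_apply, Matrix.smul_apply, one_apply_eq,
    smul_eq_mul, mul_one, one_apply_ne (show (0 : Fin 2) ≠ 1 by decide),
    one_apply_ne (show (1 : Fin 2) ≠ 0 by decide), mul_zero, add_zero, hN, zero_add] at a b d e
  exact ⟨by linear_combination a, b, d, e⟩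

theorem cc {X N : Matrix (Fin 2) (Fin 2) B} {c : B} (hN : N 1 1 = 0) (hX : X.det = 1)
    (h : X * N = (N + c • (1 : Matrix (Fin 2) (Fin 2) B)) * X) : c * (c + N 0 0) = 0 := by
  have h1 := congrArg Matrix.det h
  rw [det_mul, det_mul, hX, one_mul, mul_one, det_fin_two, det_fin_two] at h1
  simp only [Matrix.add_apply, Matrix.smul_apply, one_apply_eq,
    smul_eq_mul, mul_one, one_apply_ne (show (0 : Fin 2) ≠ 1 by decide),
    one_apply_ne (show (1 : Fin 2) ≠ 0 by decide), mul_zero, add_zero, hN, zero_add] at h1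
  linear_combination -h1

variable [IsDomain B] [CharP B 2]

theorem sq_one {p : B} (h : p * p = 1) : p = 1 := by
  have h2 : (2 : B) = 0 := CharTwo.two_eq_zero
  have : (p - 1) ^ 2 = 0 := by linear_combination h + (1 - p) * h2
  exact sub_eq_zero.1 (pow_eq_zero_iff two_ne_zero |>.1 this)

section torus

variable {N : Matrix (Fin 2) (Fin 2) B} (hN : N 1 1 = 0) (hτ : N 0 0 ≠ 0)
  {y z s : Matrix (Fin 2) (Fin 2) B}
include hN

theorem cm (h : y * N = N * y) : N 0 0 * y 0 1 = (y 0 0 + y 1 1) * N 0 1 ∧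
    N 0 0 * y 1 0 = (y 0 0 + y 1 1) * N 1 0 := by
  have h2 : (2 : B) = 0 := CharTwo.two_eq_zero
  obtain ⟨-, b, c, -⟩ := tw (X := y) (c := 0) hN (by rwa [zero_smul, add_zero])
  exact ⟨by linear_combination -b - N 0 1 * y 1 1 * h2, by linear_combination c - N 1 0 * y 1 1 * h2⟩

theorem cm_eq (h : y * N = N * y) :
    N 0 0 • y = (N 0 0 * y 1 1) • (1 : Matrix (Fin 2) (Fin 2) B) + (y 0 0 + y 1 1) • N := by
  have h2 : (2 : B) = 0 := CharTwo.two_eq_zero
  obtain ⟨a, b⟩ := cm hN h
  refine ext2 ?_ ?_ ?_ ?_ <;>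
    simp only [Matrix.add_apply, Matrix.smul_apply, one_apply_eq,
      smul_eq_mul, mul_one, one_apply_ne (show (0 : Fin 2) ≠ 1 by decide),
      one_apply_ne (show (1 : Fin 2) ≠ 0 by decide), mul_zero, add_zero, hN, zero_add]
  · linear_combination -(N 0 0 * y 1 1) * h2
  · exact a
  · exact b

omit hN in
theorem adj_eq (y : Matrix (Fin 2) (Fin 2) B) :
    y.adjugate = y + (y 0 0 + y 1 1) • (1 : Matrix (Fin 2) (Fin 2) B) := by
  have h2 : (2 : B) = 0 := CharTwo.two_eq_zero
  obtain ⟨a, b, c, d⟩ := adj y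
  refine ext2 ?_ ?_ ?_ ?_ <;>
    simp only [Matrix.add_apply, Matrix.smul_apply, one_apply_eq,
      smul_eq_mul, mul_one, one_apply_ne (show (0 : Fin 2) ≠ 1 by decide),
      one_apply_ne (show (1 : Fin 2) ≠ 0 by decide), mul_zero, add_zero, a, b, c, d]
  · linear_combination -(y 0 0) * h2
  · linear_combination -(y 0 1) * h2
  · linear_combination -(y 1 0) * h2
  · linear_combination -(y 1 1) * h2

include hτ

theorem canc (h : N 0 0 • y = N 0 0 • z) : y = z := by
  ext p q
  exact mul_left_cancel₀ hτ (ent h p q)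

theorem cm_comm (h : y * N = N * y) (h' : z * N = N * z) : y * z = z * y := by
  refine canc hN hτ ?_
  rw [← smul_mul_assoc, ← mul_smul_comm, cm_eq hN h]
  simp only [add_mul, mul_add, smul_mul_assoc, mul_smul_comm, one_mul, mul_one, h']

theorem cm_one (h : y * N = N * y) (hd : y.det = 1) (ht : y 0 0 + y 1 1 = 0) : y = 1 := by
  have h2 : (2 : B) = 0 := CharTwo.two_eq_zero
  obtain ⟨a, b⟩ := cm hN h
  rw [ht, zero_mul] at a b
  have a' := (mul_eq_zero.1 a).resolve_left hτ
  have b' := (mul_eq_zero.1 b).resolve_left hτ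
  have e : y 1 1 = y 0 0 := by linear_combination ht - y 0 0 * h2
  rw [det_fin_two, a', zero_mul, sub_zero, e] at hd
  have := sq_one hd
  exact ext2 this a' b' (e.trans this)

theorem cm_sq (h : y * N = N * y) (hd : y.det = 1) (h1 : y * y = 1) : y = 1 := by
  refine cm_one hN hτ h hd ?_
  have e : y * y.adjugate = 1 := by rw [mul_adjugate, hd, one_smul]
  rw [adj_eq, mul_add, h1, mul_smul_comm, mul_one, add_eq_left] at e
  have e2 : ((y 0 0 + y 1 1) • y) * y = 0 := by rw [e, zero_mul]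
  rw [smul_mul_assoc, h1] at e2
  simpa using ent e2 0 0

theorem cm_pow (k : ℕ) : ∀ {y : Matrix (Fin 2) (Fin 2) B}, y * N = N * y → y.det = 1 →
    y ^ 2 ^ k = 1 → y = 1 := by
  induction k with
  | zero => intro y _ _ h; simpa using h
  | succ k ih =>
    intro y h hd h1
    refine cm_sq hN hτ h hd (ih ?_ ?_ ?_)
    · rw [mul_assoc, h, ← mul_assoc, h, mul_assoc]
    · rw [det_mul, hd, one_mul]
    · rw [← pow_two, ← pow_mul, ← pow_succ', h1]

theorem an (h : s * N = (N + N 0 0 • (1 : Matrix (Fin 2) (Fin 2) B)) * s) :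
    s 1 1 = s 0 0 ∧ N 0 0 * s 0 0 = N 0 1 * s 1 0 + N 1 0 * s 0 1 := by
  have h2 : (2 : B) = 0 := CharTwo.two_eq_zero
  obtain ⟨a, -, -, d⟩ := tw hN h
  refine ⟨mul_left_cancel₀ hτ ?_, ?_⟩
  · linear_combination a - d + (N 0 1 * s 1 0 - N 1 0 * s 0 1) * h2
  · linear_combination -a - (N 0 1 * s 1 0) * h2

theorem an_sq (h : s * N = (N + N 0 0 • (1 : Matrix (Fin 2) (Fin 2) B)) * s) (hd : s.det = 1) :
    s * s = 1 := by
  have e : s * s.adjugate = 1 := by rw [mul_adjugate, hd, one_smul]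
  rwa [adj_eq, (an hN hτ h).1, CharTwo.add_self_eq_zero, zero_smul, add_zero] at e

theorem an_cm (h : s * N = (N + N 0 0 • (1 : Matrix (Fin 2) (Fin 2) B)) * s)
    (hy : y * N = N * y) : s * y = y.adjugate * s := by
  refine canc hN hτ ?_
  rw [← mul_smul_comm, adj_eq, add_mul, smul_add, ← smul_mul_assoc (N 0 0) y, cm_eq hN hy]
  simp only [add_mul, mul_add, smul_mul_assoc, mul_smul_comm, one_mul, mul_one, h, smul_add,
    smul_smul, mul_comm (N 0 0), add_assoc]

omit hτ hN in
theorem an_an {τ : B} (h : s * N = (N + τ • (1 : Matrix (Fin 2) (Fin 2) B)) * s)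
    (h' : z * N = (N + τ • (1 : Matrix (Fin 2) (Fin 2) B)) * z) : z * s * N = N * (z * s) := by
  have e : τ • (z * s) + τ • (z * s) = 0 := by
    rw [← add_smul, CharTwo.add_self_eq_zero, zero_smul]
  rw [mul_assoc, h, ← mul_assoc, mul_add, h']
  simp only [add_mul, smul_mul_assoc, mul_smul_comm, one_mul, mul_one, add_assoc, e, add_zero,
    mul_assoc]

end torus

section field

variable {K : Type} [Field K] [Algebra B K] (hi : Function.Injective (algebraMap B K))
  {ι : Type} (u : ι → K)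

theorem sq_mem (x : K) : x * x ∈ Sq u :=
  Subfield.subset_closure (Or.inl ⟨x, pow_two x⟩)

theorem u_mem (i : ι) : u i ∈ Sq u := Subfield.subset_closure (Or.inr ⟨i, rfl⟩)

/-- all entries lie in `L` -/
def InL (L : Subfield K) (y : Matrix (Fin 2) (Fin 2) B) : Prop := ∀ p q, algebraMap B K (y p q) ∈ L

variable {L : Subfield K} {y z : Matrix (Fin 2) (Fin 2) B}

omit [IsDomain B] [CharP B 2] in
theorem InL.of (a : algebraMap B K (y 0 0) ∈ L) (b : algebraMap B K (y 0 1) ∈ L)
    (c : algebraMap B K (y 1 0) ∈ L) (d : algebraMap B K (y 1 1) ∈ L) : InL L y := by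
  intro p q
  fin_cases p <;> fin_cases q <;> assumption

omit [IsDomain B] [CharP B 2] in
theorem InL.one : InL L (1 : Matrix (Fin 2) (Fin 2) B) := by
  refine InL.of ?_ ?_ ?_ ?_ <;> simp [L.one_mem, L.zero_mem]

omit [IsDomain B] [CharP B 2] in
theorem InL.mul (h : InL L y) (h' : InL L z) : InL L (y * z) := fun p q => by
  simp only [mul_apply, Fin.sum_univ_two, map_add, map_mul]
  exact L.add_mem (L.mul_mem (h _ _) (h' _ _)) (L.mul_mem (h _ _) (h' _ _))

omit [IsDomain B] [CharP B 2] in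
theorem InL.pow (h : InL L y) (n : ℕ) : InL L (y ^ n) := by
  induction n with
  | zero => rw [pow_zero]; exact InL.one
  | succ n ih => rw [pow_succ]; exact ih.mul h

omit [IsDomain B] [CharP B 2] in
theorem InL.adj (h : InL L y) : InL L y.adjugate := by
  obtain ⟨a, b, c, d⟩ := Sng.adj y
  refine InL.of ?_ ?_ ?_ ?_
  · rw [a]; exact h _ _
  · rw [b, map_neg]; exact L.neg_mem (h _ _)
  · rw [c, map_neg]; exact L.neg_mem (h _ _)
  · rw [d]; exact h _ _

include hi

omit [IsDomain B] [CharP B 2] in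
theorem mem_of_mul {a b c : B} (ha : a ≠ 0) (e : a * b = c) (h1 : algebraMap B K a ∈ L)
    (h2 : algebraMap B K c ∈ L) : algebraMap B K b ∈ L := by
  have h0 : algebraMap B K a ≠ 0 := (map_ne_zero_iff _ hi).2 ha
  have : algebraMap B K b = algebraMap B K c / algebraMap B K a := by
    rw [← e, map_mul, mul_div_cancel_left₀ _ h0]
  rw [this]
  exact L.div_mem h2 h1

omit [IsDomain B] [CharP B 2] in
theorem mem_of_rat {τ a t n : B} (hτ : τ ≠ 0) (e : τ * a = t * n) (h1 : algebraMap B K t ∈ L)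
    (h2 : algebraMap B K n / algebraMap B K τ ∈ L) : algebraMap B K a ∈ L := by
  have h0 : algebraMap B K τ ≠ 0 := (map_ne_zero_iff _ hi).2 hτ
  have : algebraMap B K a = algebraMap B K t * (algebraMap B K n / algebraMap B K τ) := by
    rw [mul_div_assoc', ← map_mul, ← e, map_mul, mul_div_cancel_left₀ _ h0]
  rw [this]
  exact L.mul_mem h1 h2

variable {N : Matrix (Fin 2) (Fin 2) B} (hN : N 1 1 = 0) (hτ : N 0 0 ≠ 0)
  (hb : algebraMap B K (N 0 1) / algebraMap B K (N 0 0) ∈ Sq u)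
  (hc : algebraMap B K (N 1 0) / algebraMap B K (N 0 0) ∈ Sq u)
include hN hτ hb hc

theorem cm_in (h : y * N = N * y) (hd : y.det = 1)
    (ht : algebraMap B K (y 0 0 + y 1 1) ∈ Sq u) : InL (Sq u) y := by
  have h2 : (2 : B) = 0 := CharTwo.two_eq_zero
  by_cases h0 : y 0 0 + y 1 1 = 0
  · rw [cm_one hN hτ h hd h0]; exact InL.one
  obtain ⟨a, b⟩ := cm hN h
  have a' := mem_of_rat hi hτ a ht hb
  have b' := mem_of_rat hi hτ b ht hc
  rw [det_fin_two] at hd
  have p : algebraMap B K (y 0 0) ∈ Sq u := by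
    refine mem_of_mul hi h0 (c := y 0 0 * y 0 0 + 1 + y 0 1 * y 1 0)
      (by linear_combination hd) ht ?_
    simp only [map_add, map_mul, map_one]
    exact add_mem (add_mem (sq_mem u _) (one_mem _)) (mul_mem a' b')
  refine InL.of p a' b' ?_
  have : y 1 1 = y 0 0 + y 1 1 - y 0 0 := by ring
  rw [this, map_sub]
  exact sub_mem ht p

theorem cm_sq_in (h : y * N = N * y) (hd : y.det = 1) : InL (Sq u) (y * y) := by
  have h2 : (2 : B) = 0 := CharTwo.two_eq_zero
  refine cm_in hi u hN hτ hb hc ?_ ?_ ?_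
  · rw [mul_assoc, h, ← mul_assoc, h, mul_assoc]
  · rw [det_mul, hd, one_mul]
  · have : (y * y) 0 0 + (y * y) 1 1 = (y 0 0 + y 1 1) * (y 0 0 + y 1 1) := by
      simp only [mul_apply, Fin.sum_univ_two]
      linear_combination (y 0 1 * y 1 0 - y 0 0 * y 1 1) * h2
    rw [this, map_mul]
    exact sq_mem u _

open Classical in
theorem an_in (h : y * N = (N + N 0 0 • (1 : Matrix (Fin 2) (Fin 2) B)) * y) (hd : y.det = 1)
    (ht : algebraMap B K (if y 0 1 = 0 then y 1 0 else y 0 1) ∈ Sq u) : InL (Sq u) y := by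
  obtain ⟨a, b⟩ := an hN hτ h
  rw [det_fin_two, a] at hd
  have h0 : algebraMap B K (N 0 0) ≠ 0 := (map_ne_zero_iff _ hi).2 hτ
  have k : algebraMap B K (y 0 1) ∈ Sq u ∧ algebraMap B K (y 1 0) ∈ Sq u := by
    by_cases h1 : y 0 1 = 0
    · rw [if_pos h1] at ht
      exact ⟨by rw [h1, map_zero]; exact zero_mem _, ht⟩
    · rw [if_neg h1] at ht
      refine ⟨ht, mem_of_mul hi h1 (c := y 0 0 * y 0 0 - 1) (by linear_combination -hd) ht ?_⟩
      simp only [map_sub, map_mul, map_one]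
      exact sub_mem (sq_mem u _) (one_mem _)
  have p : algebraMap B K (y 0 0) ∈ Sq u := by
    have : algebraMap B K (y 0 0) =
        algebraMap B K (N 0 1) / algebraMap B K (N 0 0) * algebraMap B K (y 1 0) +
        algebraMap B K (N 1 0) / algebraMap B K (N 0 0) * algebraMap B K (y 0 1) := by
      have := congrArg (algebraMap B K) b
      simp only [map_add, map_mul] at this
      field_simp
      linear_combination this
    rw [this]
    exact add_mem (mul_mem hb k.2) (mul_mem hc k.1)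
  exact InL.of p k.1 k.2 (by rw [a]; exact p)

end field

theorem nil {K : Type} [Field K] [Algebra B K] (hi : Function.Injective (algebraMap B K))
    (X : Fin 3 → Matrix (Fin 2) (Fin 2) B) (hX : ∀ i, (X i).det = 1)
    {N : Matrix (Fin 2) (Fin 2) B} (h0 : N ≠ 0) (hN : N 1 1 = 0) (hτ : N 0 0 = 0)
    (h : ∀ i, ∃ c : B, X i * N = (N + c • (1 : Matrix (Fin 2) (Fin 2) B)) * X i) :
    ∃ u : Fin 4 → K, ∀ i p q, algebraMap B K (X i p q) ∈ Sq u := by
  have h2 : (2 : B) = 0 := CharTwo.two_eq_zero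
  have k2 : (2 : K) = 0 := by rw [← map_ofNat (algebraMap B K) 2, h2, map_zero]
  have e : ∀ i, X i 0 1 * N 1 0 = N 0 1 * X i 1 0 ∧ X i 0 0 * N 0 1 = N 0 1 * X i 1 1 ∧
      X i 1 1 * N 1 0 = N 1 0 * X i 0 0 := by
    intro i
    obtain ⟨c, hc⟩ := h i
    have c0 := cc hN (hX i) hc
    rw [hτ, add_zero, mul_self_eq_zero] at c0
    obtain ⟨a, b, d, -⟩ := tw hN hc
    rw [c0] at a b d
    rw [hτ] at b d
    exact ⟨by linear_combination a, by linear_combination b, by linear_combination d⟩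
  have hd := fun i => (det_fin_two (X i)).symm.trans (hX i)
  by_cases hn : N 0 1 = 0
  · have hm : N 1 0 ≠ 0 := fun hm => h0 (ext2 hτ hn hm hN)
    refine ⟨Fin.cons 0 fun i => algebraMap B K (X i 1 0), fun i => ?_⟩
    obtain ⟨a, -, d⟩ := e i
    rw [hn, zero_mul] at a
    have a' := (mul_eq_zero.1 a).resolve_right hm
    have d' : X i 1 1 = X i 0 0 := mul_right_cancel₀ hm (d.trans (mul_comm _ _))
    have p : X i 0 0 = 1 := sq_one (by have := hd i; rw [a', d'] at this; linear_combination this)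
    refine InL.of ?_ ?_ (u_mem (Fin.cons 0 fun i => algebraMap B K (X i 1 0)) i.succ) ?_
    · rw [p, map_one]; exact one_mem _
    · rw [a', map_zero]; exact zero_mem _
    · rw [d', p, map_one]; exact one_mem _
  · have n0 : algebraMap B K (N 0 1) ≠ 0 := (map_ne_zero_iff _ hi).2 hn
    set ν := algebraMap B K (N 1 0) / algebraMap B K (N 0 1) with hν
    have s : ∀ i, X i 1 1 = X i 0 0 := fun i =>
      mul_left_cancel₀ hn ((e i).2.1.symm.trans (mul_comm _ _))
    have r : ∀ i, algebraMap B K (X i 1 0) = algebraMap B K (X i 0 1) * ν := fun i => by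
      have := congrArg (algebraMap B K) (e i).1
      simp only [map_mul] at this
      rw [hν]
      field_simp
      linear_combination -this
    have d : ∀ i, (algebraMap B K (X i 0 0) + 1) ^ 2 = algebraMap B K (X i 0 1) ^ 2 * ν := fun i => by
      have := congrArg (algebraMap B K) (hd i)
      simp only [map_mul, map_sub, map_one, s, r] at this
      linear_combination this + (algebraMap B K (X i 0 0) + 1) * k2
    have hσ : ∃ σ : K, ∀ i, algebraMap B K (X i 0 1) * ν = algebraMap B K (X i 0 1) * σ ^ 2 := by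
      by_cases hq : ∀ i, algebraMap B K (X i 0 1) = 0
      · exact ⟨0, fun i => by rw [hq, zero_mul, zero_mul]⟩
      · push Not at hq
        obtain ⟨i, hq⟩ := hq
        refine ⟨(algebraMap B K (X i 0 0) + 1) / algebraMap B K (X i 0 1), fun j => ?_⟩
        rw [div_pow, d, mul_div_cancel_left₀ _ (pow_ne_zero 2 hq)]
    obtain ⟨σ, hσ⟩ := hσ
    refine ⟨Fin.cons σ fun i => algebraMap B K (X i 0 1), fun i => ?_⟩
    have m0 : σ ∈ Sq (Fin.cons σ fun i => algebraMap B K (X i 0 1) : Fin 4 → K) :=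
      u_mem (Fin.cons σ fun i => algebraMap B K (X i 0 1) : Fin 4 → K) 0
    have m1 : algebraMap B K (X i 0 1) ∈
        Sq (Fin.cons σ fun i => algebraMap B K (X i 0 1) : Fin 4 → K) :=
      u_mem (Fin.cons σ fun i => algebraMap B K (X i 0 1) : Fin 4 → K) i.succ
    have p : algebraMap B K (X i 0 0) = algebraMap B K (X i 0 1) * σ - 1 := by
      have : (algebraMap B K (X i 0 0) + 1 - algebraMap B K (X i 0 1) * σ) ^ 2 = 0 := by
        linear_combination d i + algebraMap B K (X i 0 1) * hσ i +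
          (algebraMap B K (X i 0 1) ^ 2 * σ ^ 2 -
            (algebraMap B K (X i 0 0) + 1) * (algebraMap B K (X i 0 1) * σ)) * k2
      linear_combination (pow_eq_zero_iff two_ne_zero).1 this
    have m2 := p ▸ sub_mem (mul_mem m1 m0) (one_mem _)
    refine InL.of m2 m1 ?_ (by rw [s]; exact m2)
    rw [r, hσ]
    exact mul_mem m1 (pow_mem m0 2)

/-- the torus attached to `N` -/
def tor1 (N : Matrix (Fin 2) (Fin 2) B) : Subgroup (SpecialLinearGroup (Fin 2) B) where
  carrier := {y | y.1 * N = N * y.1}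
  mul_mem' := fun {y z} a b => by
    have a' : y.1 * N = N * y.1 := a
    have b' : z.1 * N = N * z.1 := b
    show y.1 * z.1 * N = N * (y.1 * z.1)
    rw [mul_assoc, b', ← mul_assoc, a', mul_assoc]
  one_mem' := by
    show 1 * N = N * 1
    rw [one_mul, mul_one]
  inv_mem' := fun {y} a => by
    have a' : y.1 * N = N * y.1 := a
    show y.1.adjugate * N = N * y.1.adjugate
    rw [adj_eq, add_mul, mul_add, a', smul_mul_assoc, mul_smul_comm, one_mul, mul_one]

theorem core [IsLocalRing B] [IsNoetherianRing B] (hB : Cpt B) {U : Ultrafilter Wd} (hU : Rel U)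
    {N : Matrix (Fin 2) (Fin 2) B} (hN : N 1 1 = 0) (hτ : N 0 0 ≠ 0)
    (x : Fin 3 → SpecialLinearGroup (Fin 2) B) (hx : ML U (fun w => (ev x w).1) 1)
    (a : Fin 3 → ZMod 2) (i0 : Option (Fin 3)) (h0 : ∀ i, i0 = some i → a i ≠ 0)
    (s : SpecialLinearGroup (Fin 2) B) (t : Fin 3 → tor1 N)
    (ht : ∀ i, x i = (t i).1 * if a i = 0 then 1 else s) (h1 : ∀ j, i0 = some j → t j = 1)
    (hs : ∀ i, a i ≠ 0 → s.1 * N = (N + N 0 0 • (1 : Matrix (Fin 2) (Fin 2) B)) * s.1) :
    ∃ i, i0 ≠ some i ∧ ∀ {K ι : Type} [Field K] [Algebra B K]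
      (hi : Function.Injective (algebraMap B K)) (u : ι → K),
      algebraMap B K (N 0 1) / algebraMap B K (N 0 0) ∈ Sq u →
      algebraMap B K (N 1 0) / algebraMap B K (N 0 0) ∈ Sq u →
      (∀ j, j ≠ i → InL (Sq u) (t j).1.1) → InL (Sq u) (t i).1.1 := by
  classical
  letI : CommGroup (tor1 N) := { (inferInstance : Group (tor1 N)) with
    mul_comm := fun y z => Subtype.ext (Subtype.ext (cm_comm hN hτ y.2 z.2)) }
  let cf : tor1 N →* Matrix (Fin 2) (Fin 2) B := ⟨⟨fun y => y.1.1, rfl⟩, fun _ _ => rfl⟩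
  have cp : ∀ (y : tor1 N) (n : ℕ), (y ^ n).1.1 = y.1.1 ^ n := fun y n => map_pow cf y n
  have cm : ∀ y z : tor1 N, (y * z).1.1 = y.1.1 * z.1.1 := fun _ _ => rfl
  obtain ⟨k, i, f, hi0, hf, hw⟩ := expo hU a i0 h0
  refine ⟨i, hi0, ?_⟩
  intro K ι _ _ hi u hb hc hj
  set F : tor1 N := ∏ j, t j ^ f j with hF
  have hw' : ∀ᶠ w in (U : Filter Wd), ∃ W : tor1 N, ev x w = ((F * W ^ 2) ^ 2 ^ k : tor1 N).1 :=
    hw.mono fun w h => by
      obtain ⟨W, hW⟩ := h.2 t h1
      refine ⟨W, ?_⟩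
      have := words (tor1 N).subtype s t a x ht (fun i hi => ⟨Subtype.ext (an_sq hN hτ (hs i hi) s.2),
        fun y => Subtype.ext (an_cm hN hτ (hs i hi) y.2)⟩) w
      rw [this, if_pos h.1, mul_one, hW]
      rfl
  have hch : ∀ w : Wd, ∃ W : tor1 N, (∃ W : tor1 N, ev x w = ((F * W ^ 2) ^ 2 ^ k : tor1 N).1) →
      ev x w = ((F * W ^ 2) ^ 2 ^ k : tor1 N).1 := fun w => by
    by_cases h : ∃ W : tor1 N, ev x w = ((F * W ^ 2) ^ 2 ^ k : tor1 N).1
    · exact ⟨h.choose, fun _ => h.choose_spec⟩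
    · exact ⟨1, fun h' => absurd h' h⟩
  choose W hW using hch
  choose V hV using fun p q => hB U fun w => (W w).1.1 p q
  have hV' : ML U (fun w => (W w).1.1) (Matrix.of V) := hV
  have d1 : (Matrix.of V).det = 1 := hV'.det fun w => (W w).1.2
  have c1 : Matrix.of V * N = N * Matrix.of V :=
    (hV'.mul (ML.const N)).uniq ((ML.const N).mul hV') (.of_forall fun w => (W w).2)
  let V1 : tor1 N := ⟨⟨Matrix.of V, d1⟩, c1⟩
  have e1 : (F.1.1 * Matrix.of V ^ 2) ^ 2 ^ k = 1 :=
    (((ML.const F.1.1).mul (hV'.pow 2)).pow (2 ^ k)).uniq hx (hw'.mono fun w h => by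
      rw [hW w h, cp, cm, cp])
  have e2 : F * V1 ^ 2 = 1 := by
    refine Subtype.ext (Subtype.ext (cm_pow hN hτ k (F * V1 ^ 2).2 (F * V1 ^ 2).1.2 ?_))
    rw [cm, cp]
    exact e1
  rw [hF, ← Finset.mul_prod_erase _ _ (Finset.mem_univ i), hf, pow_one, mul_assoc,
    mul_eq_one_iff_eq_inv] at e2
  rw [e2]
  refine InL.adj (y := (∏ j ∈ Finset.univ.erase i, t j ^ f j : tor1 N).1.1 *
    (V1 ^ 2 : tor1 N).1.1) (InL.mul ?_ ?_)
  · refine Finset.prod_induction _ (fun y : tor1 N => InL (Sq u) y.1.1) (fun _ _ a b => a.mul b)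
      InL.one fun j hj' => ?_
    rw [cp]
    exact (hj j (Finset.ne_of_mem_erase hj')).pow _
  · rw [pow_two]
    exact cm_sq_in hi u hN hτ hb hc c1 d1

end Sng

open Sng in
theorem sngS : SngS := by
  intro U hU B _ _ _ _ _ hB K _ _ hi X hX hL N h0 hN h
  classical
  by_cases hτ : N 0 0 = 0
  · exact nil hi X hX h0 hN hτ h
  let x : Fin 3 → SpecialLinearGroup (Fin 2) B := fun i => ⟨X i, hX i⟩
  have hev : ∀ w, (ev x w).1 = ev X w := by
    intro w
    induction w with
    | nil => rfl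
    | cons i w ih => rw [Pt.ev_cons, Pt.ev_cons, ← ih]; rfl
  have hx : ML U (fun w => (ev x w).1) 1 := by
    simp only [hev]
    exact hL
  have h2 : (2 : B) = 0 := CharTwo.two_eq_zero
  have an : ∀ i, ¬ X i * N = N * X i →
      X i * N = (N + N 0 0 • (1 : Matrix (Fin 2) (Fin 2) B)) * X i := by
    intro i hn
    obtain ⟨c, hc⟩ := h i
    rcases mul_eq_zero.1 (cc hN (hX i) hc) with e | e
    · rw [e, zero_smul, add_zero] at hc
      exact absurd hc hn
    · have : c = N 0 0 := by linear_combination e - N 0 0 * h2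
      rwa [this] at hc
  set b := algebraMap B K (N 0 1) / algebraMap B K (N 0 0)
  set c := algebraMap B K (N 1 0) / algebraMap B K (N 0 0)
  by_cases hall : ∀ i, X i * N = N * X i
  · obtain ⟨i, -, H⟩ := core hB hU hN hτ x hx 0 none (fun _ e => by cases e) 1
      (fun i => ⟨x i, hall i⟩) (fun i => by simp) (fun _ e => by cases e) (fun i e => absurd rfl e)
    let tr : Fin 3 → K := fun j => algebraMap B K (X j 0 0 + X j 1 1)
    let u : Fin 4 → K := ![b, c, tr (i.succAbove 0), tr (i.succAbove 1)]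
    have hb : b ∈ Sq u := u_mem u 0
    have hc : c ∈ Sq u := u_mem u 1
    have hj : ∀ j, j ≠ i → InL (Sq u) (X j) := by
      intro j hj
      obtain ⟨l, rfl⟩ := Fin.exists_succAbove_eq hj
      refine cm_in hi u hN hτ hb hc (hall _) (hX _) ?_
      fin_cases l
      · exact u_mem u 2
      · exact u_mem u 3
    refine ⟨u, fun j => ?_⟩
    by_cases e : j = i
    · rw [e]; exact H hi u hb hc hj
    · exact hj j e
  · push Not at hall
    obtain ⟨i0, hi0⟩ := hall
    let a : Fin 3 → ZMod 2 := fun i => if X i * N = N * X i then 0 else 1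
    have ha : ∀ i, a i = 0 ↔ X i * N = N * X i := fun i => by
      simp only [a]
      split_ifs with e <;> simp [e]
    have s2 : x i0 * x i0 = 1 := Subtype.ext (an_sq hN hτ (an i0 hi0) (hX i0))
    let t : Fin 3 → tor1 N := fun i => ⟨x i * if a i = 0 then 1 else x i0, by
      by_cases e : a i = 0
      · rw [if_pos e, mul_one]; exact (ha i).1 e
      · rw [if_neg e]; exact an_an (an i0 hi0) (an i fun e' => e ((ha i).2 e'))⟩
    have ht : ∀ i, x i = (t i).1 * if a i = 0 then 1 else x i0 := fun i => by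
      simp only [t]
      split_ifs
      · rw [mul_one, mul_one]
      · rw [mul_assoc, s2, mul_one]
    have a0 : a i0 ≠ 0 := fun e => hi0 ((ha i0).1 e)
    have t0 : t i0 = 1 := Subtype.ext (by simp only [t, if_neg a0, s2]; rfl)
    obtain ⟨i, hi1, H⟩ := core hB hU hN hτ x hx a (some i0) (fun _ e => by cases e; exact a0) (x i0)
      t ht (fun _ e => by cases e; exact t0) (fun _ _ => an i0 hi0)
    have third : ∀ i0 i : Fin 3, i0 ≠ i → ∃ l, ∀ j, j = i0 ∨ j = i ∨ j = l := by decide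
    obtain ⟨l, hl⟩ := third i0 i fun e => hi1 (by rw [e])
    let u : Fin 4 → K := ![b, c, algebraMap B K (if X i0 0 1 = 0 then X i0 1 0 else X i0 0 1),
      algebraMap B K ((t l).1.1 0 0 + (t l).1.1 1 1)]
    have hb : b ∈ Sq u := u_mem u 0
    have hc : c ∈ Sq u := u_mem u 1
    have hs : InL (Sq u) (X i0) := an_in hi u hN hτ hb hc (an i0 hi0) (hX i0) (by
      have := u_mem u 2
      convert this using 1
      simp only [u]
      split_ifs <;> rfl)
    have hj : ∀ j, j ≠ i → InL (Sq u) (t j).1.1 := by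
      intro j hj
      rcases hl j with e | e | e
      · rw [e, t0]; exact InL.one
      · exact absurd e hj
      · rw [e]; exact cm_in hi u hN hτ hb hc (t l).2 (t l).1.2 (u_mem u 3)
    have hall : ∀ j, InL (Sq u) (t j).1.1 := fun j => by
      by_cases e : j = i
      · rw [e]; exact H hi u hb hc hj
      · exact hj j e
    refine ⟨u, fun j => ?_⟩
    have e : X j = (t j).1.1 * (if a j = 0 then 1 else x i0 : SpecialLinearGroup (Fin 2) B).1 :=
      congrArg Subtype.val (ht j)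
    rw [e]
    refine (hall j).mul ?_
    split_ifs
    · exact InL.one
    · exact hs

end Vale.Agent.P022D.L2
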