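import Vale.Agent.P022D.L2.Fox
import Vale.Agent.P022D.L2.Sng

/-! # P022, block L2: the pointwise dichotomy, nothing assumed -/

namespace Vale.Agent.P022D.L2

theorem pt : PtS := ptS foxS sngS

end Vale.Agent.P022D.L2
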