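import Vale.Agent.P022D.L2.Defs
import Vale.Agent.P025.H25.Q2

/-!
# P022, block L2: the absolute Galois group of the 2-adic numbers (row AR)
-/

set_option linter.all false

noncomputable section

namespace Vale.Agent.P022D.L2

namespace Ar

open P025H25

section gen

variable {k L : Type} [Field k] [Field L] [Algebra k L] [CharZero L]

/-- the sign -/
def sg (L : Type) [Field L] (a : ZMod 2) : L := (-1) ^ a.val

theorem z2 (a : ZMod 2) : a = 0 ∨ a = 1 := by revert a; decide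

@[simp] theorem sg0 : sg L 0 = 1 := by simp [sg]

@[simp] theorem sg1 : sg L 1 = -1 := by rw [sg, ZMod.val_one, pow_one]

theorem sg_add (a b : ZMod 2) : sg L (a + b) = sg L a * sg L b := by
  rcases z2 a with rfl | rfl <;> rcases z2 b with rfl | rfl <;>
    simp [show (1 + 1 : ZMod 2) = 0 from rfl]

theorem sg_sq (a : ZMod 2) : sg L a * sg L a = 1 := by
  rcases z2 a with rfl | rfl <;> simp

theorem sg_inj {s : L} (hs : s ≠ 0) : Function.Injective fun a => sg L a * s := fun a b h => by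
  have h := mul_right_cancel₀ hs h
  rcases z2 a with rfl | rfl <;> rcases z2 b with rfl | rfl <;> first | rfl | norm_num at h

theorem map_sg (x : Gal(L / k)) (a : ZMod 2) : x (sg L a) = sg L a := by
  rcases z2 a with rfl | rfl <;> simp

/-- `a` is the quadratic character of `s` -/
def Ku (s : L) (a : Gal(L / k) → ZMod 2) : Prop := ∀ x, x s = sg L (a x) * s

theorem pm {s t : L} (h : s ^ 2 = t ^ 2) : ∃ a, s = sg L a * t := by
  rcases sq_eq_sq_iff_eq_or_eq_neg.1 h with h | h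
  · exact ⟨0, by simp [h]⟩
  · exact ⟨1, by simp [h]⟩

theorem Ku.mul {s t : L} {a b : Gal(L / k) → ZMod 2} (h : Ku s a) (h' : Ku t b) :
    Ku (s * t) (a + b) := fun x => by
  rw [map_mul, h, h', Pi.add_apply, sg_add]; ring

theorem Ku.pow {s : L} {a : Gal(L / k) → ZMod 2} (h : Ku s a) (m : ZMod 2) :
    Ku (s ^ m.val) fun x => m * a x := fun x => by
  rcases z2 m with rfl | rfl
  · simp
  · beta_reduce
    rw [ZMod.val_one, pow_one, one_mul, h]

theorem Ku.sq {s t : L} {a : Gal(L / k) → ZMod 2} (h : Ku t a) (c : k)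
    (e : s ^ 2 = (algebraMap k L c * t) ^ 2) : Ku s a := fun x => by
  obtain ⟨b, rfl⟩ := pm e
  rw [map_mul, map_mul, map_sg, AlgEquiv.commutes, h]; ring

theorem Ku.uniq {s : L} {a b : Gal(L / k) → ZMod 2} (hs : s ≠ 0) (h : Ku s a) (h' : Ku s b) :
    a = b := funext fun x => sg_inj hs ((h x).symm.trans (h' x))

variable [IsGalois k L]

theorem lc (s : L) : IsLocallyConstant fun x : Gal(L / k) => x s := by
  refine (IsLocallyConstant.iff_exists_open _).2 fun x => ⟨(fun y => x⁻¹ * y) ⁻¹'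
    MulAction.stabilizer Gal(L / k) s, (stabilizer_isOpen_of_isIntegral s).preimage (by fun_prop),
    ?_, fun y hy => ?_⟩
  · simp
  · have : (x⁻¹ * y) s = s := hy
    rw [← congrArg x this, ← AlgEquiv.mul_apply, mul_inv_cancel_left]

theorem Ku.coc {s : L} {a : Gal(L / k) → ZMod 2} (hs : s ≠ 0) (h : Ku s a) :
    Coc (fun _ => 1) a := by
  refine ⟨IsLocallyConstant.desc a _ ?_ (sg_inj hs), fun x y => sg_inj hs ?_⟩
  · rw [show (fun a => sg L a * s) ∘ a = fun x => x s from funext fun x => (h x).symm]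
    exact lc s
  · show sg L _ * s = sg L _ * s
    rw [← h, AlgEquiv.mul_apply, h y, map_mul, map_sg, h x, one_mul, sg_add]; ring

/-- Kummer theory for a character of a subgroup -/
theorem kum (H : Subgroup Gal(L / k)) (hH : IsClosed (H : Set Gal(L / k)))
    {z : Gal(L / k) → ZMod 2} (hz : IsLocallyConstant z)
    (ad : ∀ x ∈ H, ∀ y ∈ H, z (x * y) = z x + z y) :
    ∃ l : L, l ≠ 0 ∧ ∀ x ∈ H, x l = sg L (z x) * l := by
  have z1 : z 1 = 0 := by simpa using ad 1 H.one_mem 1 H.one_mem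
  let N : Subgroup Gal(L / k) :=
    { carrier := H ∩ {x | z x = 0}
      mul_mem' := fun {x y} hx hy => ⟨H.mul_mem hx.1 hy.1, by
        have := ad x hx.1 y hy.1
        rwa [hx.2, hy.2, add_zero] at this⟩
      one_mem' := ⟨H.one_mem, z1⟩
      inv_mem' := fun {x} hx => ⟨H.inv_mem hx.1, by
        have := ad x hx.1 x⁻¹ (H.inv_mem hx.1)
        rwa [mul_inv_cancel, z1, hx.2, zero_add, eq_comm] at this⟩ }
  have n1 : ∀ x ∈ H, x ∉ N → z x = 1 := fun x hx h => (z2 _).resolve_left fun e => h ⟨hx, e⟩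
  obtain ⟨l, l0, h0, h1⟩ := kummer_two H N (hH.inter (hz.isClosed_fiber 0))
    (fun x hx y hy a b => ⟨H.mul_mem hx hy, by
      show z (x * y) = 0
      rw [ad x hx y hy, n1 x hx a, n1 y hy b]; rfl⟩) fun x hx => hx.1
  refine ⟨l, l0, fun x hx => ?_⟩
  by_cases h : x ∈ N
  · rw [h0 x h, show z x = 0 from h.2, sg0, one_mul]
  · rw [h1 x hx h, n1 x hx h, sg1, neg_one_mul]

/-- a norm equation kills the cup product -/
theorem cup [IsAlgClosed L] {θ σ : L} {a b : Gal(L / k) → ZMod 2} (h0 : σ ≠ 0) (ha : Ku θ a)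
    (hθ : θ ≠ 0) (hb : Ku σ b) (p q : k)
    (e : σ ^ 2 = algebraMap k L p ^ 2 - θ ^ 2 * algebraMap k L q ^ 2) : Cup0 b a := by
  obtain ⟨y, hy⟩ := IsAlgClosed.exists_pow_nat_eq (algebraMap k L p + algebraMap k L q * θ) two_pos
  have y0 : y ≠ 0 := fun h => pow_ne_zero 2 h0 (by
    rw [h] at hy
    linear_combination e - (algebraMap k L p - algebraMap k L q * θ) * hy)
  let Y : ZMod 2 → L := fun t => if t = 0 then y else σ / y
  have Y0 : Y 0 = y := rfl
  have Y1 : Y 1 = σ / y := rfl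
  have Yn : ∀ t, Y t ≠ 0 := fun t => by
    rcases z2 t with rfl | rfl
    exacts [y0, div_ne_zero h0 y0]
  have ex : ∀ x : Gal(L / k), ∃ c, x y = sg L c * Y (a x) := fun x => pm (by
    rw [← map_pow, hy, map_add, map_mul, AlgEquiv.commutes, AlgEquiv.commutes, ha]
    rcases z2 (a x) with h | h <;> rw [h]
    · rw [Y0, hy, sg0, one_mul]
    · rw [Y1, sg1, div_pow, hy, eq_div_iff (hy ▸ pow_ne_zero 2 y0), e]; ring)
  choose z hz using ex
  have hY : ∀ (x : Gal(L / k)) t, x (Y t) = sg L (z x + b x * t) * Y (a x + t) := fun x t => by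
    rcases z2 t with rfl | rfl
    · rw [Y0, hz, mul_zero, add_zero, add_zero]
    · have s2 := sg_sq (L := L) (z x)
      have s0 : sg L (z x) ≠ 0 := left_ne_zero_of_mul_eq_one s2
      rw [Y1, map_div₀, hz, hb, mul_one, sg_add]
      rcases z2 (a x) with h | h <;> rw [h]
      · rw [zero_add, Y0, Y1]
        field_simp
        linear_combination -sg L (b x) * s2
      · rw [show (1 + 1 : ZMod 2) = 0 from rfl, Y0, Y1]
        field_simp
        linear_combination -sg L (b x) * s2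
  have ca := ha.coc hθ
  refine ⟨z, ?_, fun x w => sg_inj (Yn (a (x * w))) ?_⟩
  · refine (IsLocallyConstant.iff_eventually_eq _).2 fun x => ?_
    filter_upwards [(lc y).eventually_eq x, ca.1.eventually_eq x] with w h1 h2
    rw [hz, hz, h2] at h1
    exact sg_inj (Yn _) h1
  · show sg L _ * _ = sg L _ * _
    rw [← hz, AlgEquiv.mul_apply, hz w, map_mul, map_sg, hY, ca.2, one_mul, sg_add, sg_add, sg_add]
    ring

/-- if the square of the character of `θ` dies, then `-1` is a norm -/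
theorem ncup {θ : L} {a : Gal(L / k) → ZMod 2} (ha : Ku θ a) (hθ : θ ≠ 0) (τ : Gal(L / k))
    (hτ : a τ = 1) (h : Cup0 a a) :
    ∃ p q : k, algebraMap k L p ^ 2 - θ ^ 2 * algebraMap k L q ^ 2 = -1 := by
  obtain ⟨z, hz, ad⟩ := h
  have ca := ha.coc hθ
  have am : ∀ x y, a (x * y) = a x + a y := fun x y => by rw [ca.2, one_mul]
  have a1 : a 1 = 0 := by simpa using am 1 1
  have ai : ∀ x, a x⁻¹ = a x := fun x => by
    have := am x x⁻¹
    rw [mul_inv_cancel, a1] at this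
    revert this
    generalize a x = u
    generalize a x⁻¹ = v
    revert u v
    decide
  let H : Subgroup Gal(L / k) :=
    { carrier := {x | a x = 0}
      mul_mem' := fun {x y} hx hy => by
        have := am x y
        rwa [hx, hy, add_zero] at this
      one_mem' := a1
      inv_mem' := fun {x} hx => (ai x).trans hx }
  obtain ⟨l, l0, hl⟩ := kum H (ca.1.isClosed_fiber 0) hz fun x hx y hy => by
    rw [ad, show a x = 0 from hx, zero_mul, add_zero]
  have hl : ∀ x, a x = 0 → x l = sg L (z x) * l := hl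
  have two : (1 + 1 : ZMod 2) = 0 := rfl
  have cj : ∀ x, a x = 0 → a (τ⁻¹ * (x * τ)) = 0 := fun x hx => by
    rw [am, am, ai, hτ, hx, zero_add, two]
  have mv : ∀ (x : Gal(L / k)) (w : L), x w = τ ((τ⁻¹ * x) w) := fun x w => by
    rw [← AlgEquiv.mul_apply, mul_inv_cancel_left]
  have h1 : ∀ x, a x = 0 → x (τ l) = sg L (z x) * τ l := fun x hx => by
    have e := ad τ (τ⁻¹ * (x * τ))
    rw [mul_inv_cancel_left, ad, hx, cj x hx, zero_mul, mul_zero, add_zero, add_zero,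
      add_comm, add_right_inj] at e
    rw [← AlgEquiv.mul_apply, mv, hl _ (cj x hx), map_mul, map_sg, e]
  have h2 : τ (τ l) = -l := by
    rw [← AlgEquiv.mul_apply, hl _ (by rw [am, hτ, two]), ad, hτ, sg_add, sg_add, sg_sq, mul_one,
      sg1]
    ring
  have l1 : τ l ≠ 0 := (map_ne_zero τ).2 l0
  obtain ⟨w, hw⟩ : ∃ w, w = τ l / l := ⟨_, rfl⟩
  have w0 : ∀ x, a x = 0 → x w = w := fun x hx => by
    rw [hw, map_div₀, h1 x hx, hl x hx,
      mul_div_mul_left _ _ (left_ne_zero_of_mul_eq_one (sg_sq _))]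
  have w1 : ∀ x, a x = 1 → x w = τ w := fun x hx => by
    rw [mv x, w0 _ (by rw [am, ai, hτ, hx, two])]
  have w2 : ∀ x, a x = 0 → x (τ w) = τ w := fun x hx => by
    rw [← AlgEquiv.mul_apply, w1 _ (by rw [am, hx, hτ, zero_add])]
  have w3 : ∀ x, a x = 1 → x (τ w) = w := fun x hx => by
    rw [← AlgEquiv.mul_apply, w0 _ (by rw [am, hx, hτ, two])]
  have ww : w * τ w = -1 := by
    rw [hw, map_div₀, h2]; field_simp
  obtain ⟨p, hp⟩ := (InfiniteGalois.mem_range_algebraMap_iff_fixed (k := k) ((w + τ w) / 2)).2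
    fun x => by
      rw [map_div₀, map_add, map_ofNat]
      rcases z2 (a x) with h | h
      · rw [w0 x h, w2 x h]
      · rw [w1 x h, w3 x h, add_comm]
  obtain ⟨q, hq⟩ := (InfiniteGalois.mem_range_algebraMap_iff_fixed (k := k)
    ((w - τ w) / (2 * θ))).2 fun x => by
      rw [map_div₀, map_sub, map_mul, map_ofNat, ha]
      rcases z2 (a x) with h | h
      · rw [w0 x h, w2 x h, h, sg0, one_mul]
      · rw [w1 x h, w3 x h, h, sg1, neg_one_mul, mul_neg, div_neg, ← neg_div, neg_sub]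
  refine ⟨p, q, ?_⟩
  rw [hp, hq, ← ww]
  field_simp
  ring

/-- the Kummer cocycles modulo eight -/
theorem oct [IsAlgClosed L] : ∃ χ : Gal(L / k) →* ZMod 8, IsLocallyConstant χ ∧
    (∃ t : L, t ^ 2 = 2 ∧ ∀ x, χ x = 1 ∨ χ x = -1 → x t = t) ∧
    ∀ d : k, d ≠ 0 → ∃ (u : Gal(L / k) → ZMod 8) (s : L), Coc χ u ∧ s ^ 2 = algebraMap k L d ∧
      Ku s fun x => ZMod.castHom (show 2 ∣ 8 by norm_num) (ZMod 2) (u x) := by
  obtain ⟨ζ, hζ⟩ := HasEnoughRootsOfUnity.exists_primitiveRoot L 8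
  have h8 := hζ.pow_eq_one
  have h4 : ζ ^ 4 = -1 := (hζ.pow (by norm_num) (show 8 = 4 * 2 from rfl)).eq_neg_one_of_two_right
  let E := AddChar.zmodChar 8 h8
  have Ea : ∀ a, E a = ζ ^ a.val := fun a => rfl
  have inj : ∀ {r : L}, r ≠ 0 → Function.Injective fun a => E a * r := fun r0 a b h =>
    ZMod.val_injective 8 (hζ.pow_inj (ZMod.val_lt a) (ZMod.val_lt b) (mul_right_cancel₀ r0 h))
  have ex : ∀ r : L, r ≠ 0 → (∀ x : Gal(L / k), x (r ^ 8) = r ^ 8) →
      ∃ u : Gal(L / k) → ZMod 8, IsLocallyConstant u ∧ ∀ x, x r = E (u x) * r := fun r r0 hr => by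
    have : ∀ x : Gal(L / k), ∃ a, x r = E a * r := fun x => by
      obtain ⟨i, -, hi⟩ := hζ.eq_pow_of_pow_eq_one (ξ := x r / r)
        (by rw [div_pow, ← map_pow, hr, div_self (pow_ne_zero 8 r0)])
      exact ⟨i, by rw [AddChar.zmodChar_apply', hi, div_mul_cancel₀ _ r0]⟩
    choose u hu using this
    refine ⟨u, IsLocallyConstant.desc u _ ?_ (inj r0), hu⟩
    rw [show (fun a => E a * r) ∘ u = fun x => x r from funext fun x => (hu x).symm]
    exact lc r
  have ζ0 := hζ.ne_zero (by norm_num)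
  have E1 : E 1 = ζ := by rw [Ea]; exact pow_one ζ
  obtain ⟨v, lv, hv⟩ := ex ζ ζ0 fun x => by rw [h8, map_one]
  have hc : ∀ x : Gal(L / k), x ζ = E (v x + 1) := fun x => by
    rw [AddChar.map_add_eq_mul, E1, hv]
  have hE : ∀ (x : Gal(L / k)) a, x (E a) = E ((v x + 1) * a) := fun x a => by
    rw [Ea a, map_pow, hc, ← AddChar.map_nsmul_eq_pow, nsmul_eq_mul, ZMod.natCast_zmod_val,
      mul_comm]
  let χ : Gal(L / k) →* ZMod 8 :=
    { toFun := fun x => v x + 1
      map_one' := inj one_ne_zero (by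
        show E _ * 1 = E _ * 1
        rw [← hc, E1, AlgEquiv.one_apply])
      map_mul' := fun x y => inj one_ne_zero (by
        show E _ * 1 = E _ * 1
        rw [← hc, AlgEquiv.mul_apply, hc y, hE]) }
  refine ⟨χ, lv.comp (· + 1), ⟨E 1 + E (-1), ?_, fun x hx => ?_⟩, fun d d0 => ?_⟩
  · rw [E1, Ea, show (-1 : ZMod 8).val = 7 from rfl]
    linear_combination 2 * h8 + ζ ^ 6 * h8 + ζ ^ 2 * h4
  · have hx : v x + 1 = 1 ∨ v x + 1 = -1 := hx
    rw [map_add, hE, hE]
    rcases hx with h | h <;> rw [h]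
    · rw [one_mul, one_mul]
    · rw [mul_one, neg_mul_neg, one_mul, add_comm]
  obtain ⟨r, hr⟩ := IsAlgClosed.exists_pow_nat_eq (algebraMap k L d) (show 0 < 8 by norm_num)
  have r0 : r ≠ 0 := fun h => (map_ne_zero (algebraMap k L)).2 d0 (by rw [← hr, h]; norm_num)
  obtain ⟨u, lu, hu⟩ := ex r r0 fun x => by rw [hr, AlgEquiv.commutes]
  refine ⟨u, r ^ 4, ⟨lu, fun x y => inj r0 ?_⟩, by rw [← hr]; ring, fun x => ?_⟩
  · show E _ * r = E (u x + (v x + 1) * u y) * r
    rw [← hu, AlgEquiv.mul_apply, hu y, map_mul, hE, hu x, AddChar.map_add_eq_mul]; ring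
  · beta_reduce
    rw [map_pow, hu, mul_pow, Ea, ← pow_mul, mul_comm _ 4, pow_mul, h4, sg,
      neg_one_pow_eq_pow_mod_two, ZMod.castHom_apply, ZMod.cast_eq_val, ZMod.val_natCast]

end gen

/-- the square classes -/
def D (m : Fin 3 → ZMod 2) : ℤ := (-1) ^ (m 0).val * 2 ^ (m 1).val * 5 ^ (m 2).val

theorem D_sur : ∀ i : Fin 8, ∃ a b c : ZMod 2, D ![a, b, c] = R i := by decide

theorem D_inj : ∀ a b c : ZMod 2, (a = 0 ∧ b = 0 ∧ c = 0) ∨
    ∃ i j : Fin 8, D ![a, b, c] = R i ∧ T i j = true := by decide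

theorem D_nsq (m : Fin 3 → ZMod 2) (c : ℚ_[2]) (h : c ^ 2 = D m) : m = 0 := by
  have e : m = ![m 0, m 1, m 2] := by ext i; fin_cases i <;> rfl
  rcases D_inj (m 0) (m 1) (m 2) with ⟨a, b, c⟩ | ⟨i, j, h1, h2⟩
  · rw [e, a, b, c]; ext i; fin_cases i <;> rfl
  rw [← e] at h1
  rw [h1] at h
  have c0 : c ≠ 0 := fun z => R_cast_ne_zero i (by rw [← h, z]; norm_num)
  exact (not_split_of_T i j i.2 j.2 h2 ⟨1 / c, 0, by rw [← h]; field_simp; ring⟩).elim

theorem basis {G : Type} [Group G] [TopologicalSpace G] (a : Fin 3 → G → ZMod 2)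
    (h : ∀ i, Coc (fun _ => 1) (a i))
    (ind : ∀ m : Fin 3 → ZMod 2, (∀ x, ∑ i, m i * a i x = 0) → m = 0) :
    ∃ g : Fin 3 → G, ∀ i j, a i (g j) = if i = j then 1 else 0 := by
  have a1 : ∀ i, a i 1 = 0 := fun i => by simpa using (h i).2 1 1
  let S : Submodule (ZMod 2) (Fin 3 → ZMod 2) :=
    { carrier := Set.range fun x i => a i x
      add_mem' := by
        rintro _ _ ⟨x, rfl⟩ ⟨y, rfl⟩
        exact ⟨x * y, funext fun i => ((h i).2 x y).trans (by rw [one_mul]; rfl)⟩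
      zero_mem' := ⟨1, funext a1⟩
      smul_mem' := by
        rintro c _ ⟨x, rfl⟩
        rcases z2 c with rfl | rfl
        · exact ⟨1, by rw [zero_smul]; exact funext a1⟩
        · exact ⟨x, by rw [one_smul]⟩ }
  have hS : S = ⊤ := by
    by_contra n
    obtain ⟨f, f0, hf⟩ := S.exists_le_ker_of_lt_top (lt_top_iff_ne_top.2 n)
    have := ind (fun i => f fun j => if i = j then 1 else 0) fun x => by
      have e : f (fun i => a i x) = 0 := hf ⟨x, rfl⟩
      rw [LinearMap.pi_apply_eq_sum_univ] at e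
      simpa only [smul_eq_mul, mul_comm] using e
    refine f0 (LinearMap.ext fun v => ?_)
    rw [LinearMap.pi_apply_eq_sum_univ]
    exact Finset.sum_eq_zero fun i _ => by rw [congrFun this i]; simp
  have : ∀ j : Fin 3, ∃ x, (fun i => a i x) = fun i => if i = j then 1 else 0 := fun j =>
    (hS ▸ Submodule.mem_top : _ ∈ S)
  choose g hg using this
  exact ⟨g, fun i j => congrFun (hg j) i⟩

end Ar

open Ar P025H25

theorem ar : ArS := by
  obtain ⟨χ, lχ, ⟨t, t2, ht⟩, hu⟩ := oct (k := ℚ_[2]) (L := AlgebraicClosure ℚ_[2])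
  obtain ⟨u0, s0, c0, e0, k0⟩ := hu (-1) (by norm_num)
  obtain ⟨u1, s1, c1, e1, k1⟩ := hu 2 (by norm_num)
  obtain ⟨u2, s2, c2, e2, k2⟩ := hu 5 (by norm_num)
  rw [map_neg, map_one] at e0
  rw [map_ofNat] at e1 e2
  have n0 : s0 ≠ 0 := fun h => by rw [h] at e0; norm_num at e0
  have n1 : s1 ≠ 0 := fun h => by rw [h] at e1; norm_num at e1
  have n2 : s2 ≠ 0 := fun h => by rw [h] at e2; norm_num at e2
  obtain ⟨a, ha⟩ : ∃ a : Fin 3 → Gal(AlgebraicClosure ℚ_[2] / ℚ_[2]) → ZMod 2, ∀ i x,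
    ZMod.castHom (show 2 ∣ 8 by norm_num) (ZMod 2) (![u0, u1, u2] i x) = a i x :=
    ⟨_, fun _ _ => rfl⟩
  have k0 : Ku s0 (a 0) := fun x => ha 0 x ▸ k0 x
  have k1 : Ku s1 (a 1) := fun x => ha 1 x ▸ k1 x
  have k2 : Ku s2 (a 2) := fun x => ha 2 x ▸ k2 x
  have hom : ∀ i, Coc (fun _ => 1) (a i) := fun i => by
    fin_cases i
    exacts [k0.coc n0, k1.coc n1, k2.coc n2]
  have cl : ∀ m : Fin 3 → ZMod 2, ∃ s : AlgebraicClosure ℚ_[2], s ^ 2 = D m ∧
      Ku s fun x => ∑ i, m i * a i x := fun m =>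
    ⟨s0 ^ (m 0).val * s1 ^ (m 1).val * s2 ^ (m 2).val, by
      rw [mul_pow, mul_pow, ← pow_mul, ← pow_mul, ← pow_mul, pow_mul', pow_mul', pow_mul', e0, e1,
        e2, D]
      push_cast
      rfl, fun x => by
      simp only [Fin.sum_univ_three]
      exact ((k0.pow (m 0)).mul (k1.pow (m 1))).mul (k2.pow (m 2)) x⟩
  have inj := (algebraMap ℚ_[2] (AlgebraicClosure ℚ_[2])).injective
  obtain ⟨g, hg⟩ := basis a hom fun m hm => by
    obtain ⟨s, e, ks⟩ := cl m
    obtain ⟨c, hc⟩ := (InfiniteGalois.mem_range_algebraMap_iff_fixed (k := ℚ_[2]) s).2 fun x => by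
      rw [ks]
      beta_reduce
      rw [hm, sg0, one_mul]
    exact D_nsq m c (inj (by rw [map_pow, hc, e, map_intCast]))
  refine ⟨g, a, hom, hg, fun b hb b0 x => ?_, cup n0 k1 n1 k0 1 1 ?_, cup n0 k2 n2 k0 2 1 ?_,
    cup n1 k1 n1 k1 2 1 ?_, cup n2 k2 n2 k2 5 2 ?_, ?_, fun h => ?_,
    χ, ![u0, u1, u2], lχ, ⟨1, ?_⟩, fun i => ?_, ha⟩
  · obtain ⟨l, l0, hl⟩ := kum (L := AlgebraicClosure ℚ_[2]) ⊤ isClosed_univ hb.1
      fun x _ y _ => by rw [hb.2, one_mul]
    have hl : Ku l b := fun x => hl x trivial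
    obtain ⟨c, hc⟩ := (InfiniteGalois.mem_range_algebraMap_iff_fixed (k := ℚ_[2]) (l ^ 2)).2
      fun x => by rw [map_pow, hl, mul_pow, sq (sg _ _), sg_sq, one_mul]
    obtain ⟨i, hi, w, -, hw⟩ := exists_class_Q2 c fun h => pow_ne_zero 2 l0 (by
      rw [← hc, h, map_zero])
    obtain ⟨p, q, r, hm⟩ := D_sur ⟨i, hi⟩
    obtain ⟨s, e, ks⟩ := cl ![p, q, r]
    have := hl.uniq l0 (ks.sq w (by
      rw [← hc, hw, mul_pow, e, hm, map_mul, map_pow, map_intCast, mul_comm]))
    have m0 : ∀ j, ![p, q, r] j = 0 := fun j => by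
      have := b0 j
      rw [‹b = _›] at this
      simpa [hg] using this
    rw [this]
    exact Finset.sum_eq_zero fun i _ => by rw [m0, zero_mul]
  · rw [e0, e1, map_one]; norm_num
  · rw [e0, e2, map_one, map_ofNat]; norm_num
  · rw [e1, map_one, map_ofNat]; norm_num
  · rw [e2, map_ofNat, map_ofNat]; norm_num
  · obtain ⟨w, hw, -⟩ := exists_sq_of_one_mod_eight (-7) (by
      rw [map_neg, map_ofNat]; rfl)
    have hw : (w : ℚ_[2]) ^ 2 = -7 := by exact_mod_cast congrArg (fun x : ℤ_[2] => (x : ℚ_[2])) hw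
    refine cup (mul_ne_zero n0 n1) (k0.mul k2) (mul_ne_zero n0 n2) (k0.mul k1) w 1 ?_
    rw [← map_pow, hw, mul_pow, mul_pow, e0, e1, e2, map_neg, map_ofNat, map_one]; norm_num
  · obtain ⟨p, q, e⟩ := ncup k0 n0 (g 0) (by rw [hg]; rfl) h
    refine not_split_of_T 2 2 (by norm_num) (by norm_num) (by decide) ⟨p, q, inj ?_⟩
    rw [show R 2 = -1 by decide, e0] at *
    simp only [map_add, map_mul, map_pow, map_intCast, map_one]
    push_cast
    linear_combination -e
  · have kt : Ku t (a 1) := k1.sq 1 (by rw [map_one, one_mul, t2, e1])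
    have := kt (g 1)
    rw [hg, if_pos rfl, sg1] at this
    have t0 : t ≠ 0 := fun h => by rw [h] at t2; norm_num at t2
    refine not_or.1 fun h => t0 ?_
    rw [ht _ h] at this
    linear_combination this / 2
  · fin_cases i
    exacts [c0, c1, c2]

end Vale.Agent.P022D.L2
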