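import Mathlib

/-!
# P022, block L2 (local ring at 2, residually unipotent case): definitions and statements
-/

set_option linter.all false

noncomputable section

namespace Vale.Agent.P022D.L2

open Filter IsLocalRing

/-- positive words in three letters -/
abbrev Wd : Type := List (Fin 3)

/-- value of a word -/
def ev {M : Type*} [Monoid M] (X : Fin 3 → M) (w : Wd) : M := (w.map X).prod

/-- Fox derivative of a word, evaluated at the character `x_i ↦ e i` -/
def fx {R : Type*} [CommRing R] (e : Fin 3 → R) (j : Fin 3) : Wd → R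
  | [] => 0
  | i :: w => (if i = j then 1 else 0) + e i * fx e j w

/-- Magnus coefficient of degree one, mod 2 -/
def mA (j : Fin 3) (w : Wd) : ZMod 2 := fx (fun _ => 1) j w

/-- Magnus coefficient of degree two, mod 2 -/
def mC (i j : Fin 3) : Wd → ZMod 2
  | [] => 0
  | k :: w => mC i j w + (if k = i then mA j w else 0)

/-- the permutation whose matrix is the Hilbert form in the basis `-1, 2, 5` -/
def hp : Fin 3 → Fin 3 := ![0, 2, 1]

/-- **a relation of Hilbert type**: an ultrafilter of words -/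
structure Rel (U : Ultrafilter Wd) : Prop where
  mag : ∀ᶠ w in (U : Filter Wd), (∀ j, mA j w = 0) ∧ ∀ i j, mC i j w = if i = hp j then 1 else 0
  ori : ∃ e : Fin 3 → ZMod 8, (∀ i, e i * e i = 1) ∧ (∃ i, e i ≠ 1 ∧ e i ≠ -1) ∧
    ∀ᶠ w in (U : Filter Wd), ∀ j, fx e j w = 0

/-- adic limit along a filter -/
def Lim {ι R : Type*} [CommRing R] (m : Ideal R) (U : Filter ι) (x : ι → R) (y : R) : Prop :=
  ∀ k : ℕ, ∀ᶠ w in U, x w - y ∈ m ^ k

/-- locally constant twisted cocycles -/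
def Coc {G A : Type*} [Group G] [TopologicalSpace G] [CommRing A] (e u : G → A) : Prop :=
  IsLocallyConstant u ∧ ∀ x y, u (x * y) = u x + e x * u y

/-- `a ∪ b` is a coboundary -/
def Cup0 {G : Type*} [Group G] [TopologicalSpace G] (a b : G → ZMod 2) : Prop :=
  ∃ z : G → ZMod 2, IsLocallyConstant z ∧ ∀ x y, z (x * y) = z x + z y + a x * b y

/-- what is used of the absolute Galois group of `ℚ₂`: `a 0, a 1, a 2` are the quadratic
characters of `-1, 2, 5`, and `g` is a dual basis -/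
structure Loc2 {G : Type*} [Group G] [TopologicalSpace G] (g : Fin 3 → G)
    (a : Fin 3 → G → ZMod 2) : Prop where
  hom : ∀ i, Coc (fun _ => 1) (a i)
  dual : ∀ i j, a i (g j) = if i = j then 1 else 0
  gen : ∀ b : G → ZMod 2, Coc (fun _ => 1) b → (∀ j, b (g j) = 0) → ∀ x, b x = 0
  c01 : Cup0 (a 0) (a 1)
  c02 : Cup0 (a 0) (a 2)
  c11 : Cup0 (a 1) (a 1)
  c22 : Cup0 (a 2) (a 2)
  cmx : Cup0 (a 0 + a 1) (a 0 + a 2)
  c00 : ¬ Cup0 (a 0) (a 0)
  cyc : ∃ (χ : G →* ZMod 8) (u : Fin 3 → G → ZMod 8), IsLocallyConstant χ ∧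
    (∃ i, χ (g i) ≠ 1 ∧ χ (g i) ≠ -1) ∧ (∀ i, Coc χ (u i)) ∧
    ∀ i x, ZMod.castHom (show 2 ∣ 8 by norm_num) (ZMod 2) (u i x) = a i x

/-- a homomorphism with open kernel whose image is a 2-group -/
def Two {G M : Type*} [Group G] [TopologicalSpace G] [Monoid M] (ρ : G →* M) : Prop :=
  IsOpen {x | ρ x = 1} ∧ ∀ x, ∃ k : ℕ, ρ x ^ 2 ^ k = 1

/-- the relation holds in, and `g` generates, every finite 2-quotient of `G` -/
def Holds {G : Type} [Group G] [TopologicalSpace G] (g : Fin 3 → G) (U : Ultrafilter Wd) : Prop :=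
  ∀ (M : Type) [Monoid M] (ρ : G →* M), Two ρ →
    (∀ᶠ w in (U : Filter Wd), ev (fun i => ρ (g i)) w = 1) ∧
      ∀ x, ∃ w : Wd, ρ x = ev (fun i => ρ (g i)) w

/-- row AR -/
def ArS : Prop :=
  ∃ (g : Fin 3 → Gal(AlgebraicClosure ℚ_[2] / ℚ_[2]))
    (a : Fin 3 → Gal(AlgebraicClosure ℚ_[2] / ℚ_[2]) → ZMod 2), Loc2 g a

/-- row REL -/
def RelS : Prop :=
  ∀ (G : Type) [Group G] [TopologicalSpace G] [IsTopologicalGroup G] [CompactSpace G]
    (g : Fin 3 → G) (a : Fin 3 → G → ZMod 2), Loc2 g a →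
    ∃ U : Ultrafilter Wd, Rel U ∧ Holds g U

/-- ultrafilter limits exist -/
def Cpt (B : Type) [CommRing B] [IsLocalRing B] : Prop :=
  ∀ (U : Ultrafilter Wd) (x : Wd → B), ∃ y, Lim (maximalIdeal B) U x y

/-- determinant one, upper unitriangular modulo the maximal ideal -/
def Uni {B : Type} [CommRing B] [IsLocalRing B] (X : Matrix (Fin 2) (Fin 2) B) : Prop :=
  X.det = 1 ∧ X 0 0 - 1 ∈ maximalIdeal B ∧ X 1 0 ∈ maximalIdeal B ∧ X 1 1 - 1 ∈ maximalIdeal B

/-- derivative of a word in the direction `X i ↦ (1 + ε Y i) X i`, times the inverse -/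
def dw {B : Type} [CommRing B] (X Y : Fin 3 → Matrix (Fin 2) (Fin 2) B) :
    Wd → Matrix (Fin 2) (Fin 2) B
  | [] => 0
  | i :: w => Y i + X i * dw X Y w * (X i).adjugate

/-- row FOX -/
def FoxS : Prop :=
  ∀ (U : Ultrafilter Wd), Rel U → ∀ (B : Type) [CommRing B] [IsLocalRing B] [IsNoetherianRing B]
    [CharP B 2] (X : Fin 3 → Matrix (Fin 2) (Fin 2) B), (∀ i, Uni (X i)) →
    ∀ (N : Matrix (Fin 2) (Fin 2) B) (μ : Fin 3 → B),
    (∀ Y : Fin 3 → Matrix (Fin 2) (Fin 2) B,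
      Lim (maximalIdeal B) U (fun w => (N * dw X Y w).trace) (∑ i, μ i * (Y i).trace)) →
    ∀ i, ∃ c : B, X i * N = (N + c • (1 : Matrix (Fin 2) (Fin 2) B)) * X i

/-- the subfield generated by the squares and the elements `u i` -/
def Sq {K ι : Type} [Field K] (u : ι → K) : Subfield K :=
  Subfield.closure (Set.range (fun x : K => x ^ 2) ∪ Set.range u)

/-- row SNG -/
def SngS : Prop :=
  ∀ (U : Ultrafilter Wd), Rel U → ∀ (B : Type) [CommRing B] [IsDomain B] [IsLocalRing B]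
    [IsNoetherianRing B] [CharP B 2], Cpt B →
    ∀ (K : Type) [Field K] [Algebra B K], Function.Injective (algebraMap B K) →
    ∀ (X : Fin 3 → Matrix (Fin 2) (Fin 2) B), (∀ i, (X i).det = 1) →
    (∀ p q, Lim (maximalIdeal B) U (fun w => ev X w p q) ((1 : Matrix (Fin 2) (Fin 2) B) p q)) →
    ∀ N : Matrix (Fin 2) (Fin 2) B, N ≠ 0 → N 1 1 = 0 →
    (∀ i, ∃ c : B, X i * N = (N + c • (1 : Matrix (Fin 2) (Fin 2) B)) * X i) →
    ∃ u : Fin 4 → K, ∀ i p q, algebraMap B K (X i p q) ∈ Sq u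

/-- **output of the block** (row JL): at a point `φ` of characteristic two of the six equations
`det X i = δ i`, `Z 0 0 = 1`, `Z 0 1 = 0`, `Z 1 0 = 0` (`Z` = value of the relation), either the
Jacobian for the twelve coordinate derivations has rank six, or the coordinates lie in a field
generated by the squares and four elements -/
def PtS : Prop :=
  ∀ (U : Ultrafilter Wd), Rel U → ∀ (R : Type) [CommRing R] [IsLocalRing R]
    (X : Fin 3 → Matrix (Fin 2) (Fin 2) R) (Z : Matrix (Fin 2) (Fin 2) R),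
    (∀ p q, Lim (maximalIdeal R) U (fun w => ev X w p q) (Z p q)) →
    ∀ (D : Fin 3 → Fin 2 → Fin 2 → R →+ R),
    (∀ i p q x y, D i p q (x * y) = x * D i p q y + y * D i p q x) →
    (∀ i p q i' p' q', D i p q (X i' p' q') = if i = i' ∧ p = p' ∧ q = q' then 1 else 0) →
    ∀ (B : Type) [CommRing B] [IsDomain B] [IsLocalRing B] [IsNoetherianRing B] [CharP B 2],
    Cpt B → ∀ (φ : R →+* B), (∀ x ∈ maximalIdeal R, φ x ∈ maximalIdeal B) →
    (∀ i, Uni ((X i).map φ)) → φ (Z 0 0) = 1 → φ (Z 0 1) = 0 → φ (Z 1 0) = 0 →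
    ∀ (K : Type) [Field K] [Algebra B K] [IsFractionRing B K],
    (∀ (μ l : Fin 3 → K), (∀ i p q, ∑ i', μ i' * algebraMap B K (φ (D i p q (X i').det)) +
        (l 0 * algebraMap B K (φ (D i p q (Z 0 0))) + l 1 * algebraMap B K (φ (D i p q (Z 0 1))) +
          l 2 * algebraMap B K (φ (D i p q (Z 1 0)))) = 0) → μ = 0 ∧ l = 0) ∨
      ∃ u : Fin 4 → K, ∀ i p q, algebraMap B K (φ (X i p q)) ∈ Sq u

/-- row CPT -/
def CptS : Prop :=
  ∀ (B : Type) [CommRing B] [IsLocalRing B] [IsNoetherianRing B]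
    [IsPrecomplete (maximalIdeal B) B] [Finite (ResidueField B)], Cpt B

/-- row EV: the equations hold on every representation which is unitriangular modulo a nilpotent
maximal ideal, and such a representation takes its values in the words of the generators -/
def EvS : Prop :=
  ∀ (G : Type) [Group G] [TopologicalSpace G] (g : Fin 3 → G) (U : Ultrafilter Wd), Holds g U →
    ∀ (A : Type) [CommRing A] [IsLocalRing A], IsNilpotent (maximalIdeal A) →
    (2 : A) ∈ maximalIdeal A → ∀ (ρ : G →* Matrix (Fin 2) (Fin 2) A), IsOpen {x | ρ x = 1} →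
    (∀ x, ρ x 0 0 - 1 ∈ maximalIdeal A ∧ ρ x 1 0 ∈ maximalIdeal A ∧
      ρ x 1 1 - 1 ∈ maximalIdeal A) →
    (∀ x, ∃ w : Wd, ρ x = ev (fun i => ρ (g i)) w) ∧
    ∀ (R : Type) [CommRing R] [IsLocalRing R] (X : Fin 3 → Matrix (Fin 2) (Fin 2) R)
      (Z : Matrix (Fin 2) (Fin 2) R),
      (∀ p q, Lim (maximalIdeal R) U (fun w => ev X w p q) (Z p q)) →
      ∀ (φ : R →+* A), (∀ x ∈ maximalIdeal R, φ x ∈ maximalIdeal A) →
      (∀ i, (X i).map φ = ρ (g i)) → Z.map φ = 1

end Vale.Agent.P022D.L2
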