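import Vale.Agent.P022D.L2.Defs

/-! # P022, block L2: Fox derivatives of the relation generate the augmentation ideal -/

set_option linter.all false

noncomputable section

namespace Vale.Agent.P022D.L2

open Filter IsLocalRing Matrix

namespace Fox

variable {B : Type} [CommRing B]

/-- two by two matrices -/
abbrev Mt (B : Type) : Type := Matrix (Fin 2) (Fin 2) B

/-- conjugation -/
def sg (X : (Mt B)) : (Mt B) →ₗ[B] (Mt B) := (LinearMap.mulLeft B X.adjugate).comp (LinearMap.mulRight B X)

theorem sg_apply (X N : (Mt B)) : sg X N = X.adjugate * (N * X) := rfl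

/-- conjugation minus the identity -/
def th (X : (Mt B)) : (Mt B) →ₗ[B] (Mt B) := sg X - LinearMap.id

theorem th_apply (X N : (Mt B)) : th X N = X.adjugate * (N * X) - N := rfl

theorem sg_eq (X N : (Mt B)) : sg X N = N + th X N := by
  rw [th_apply, sg_apply]; abel

/-- the dual Fox operators -/
def T (X : Fin 3 → (Mt B)) (j : Fin 3) : Wd → (Mt B) → (Mt B)
  | [], _ => 0
  | i :: w, N => (if i = j then N else 0) + T X j w (sg (X i) N)

theorem tr_dw (X Y : Fin 3 → (Mt B)) (w : Wd) : ∀ N : (Mt B),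
    (N * dw X Y w).trace = ∑ j, (T X j w N * Y j).trace := by
  induction w with
  | nil => intro N; simp [dw, T]
  | cons i w ih =>
    intro N
    have h : (N * (X i * dw X Y w * (X i).adjugate)).trace =
        (sg (X i) N * dw X Y w).trace := by
      rw [← mul_assoc, trace_mul_comm, sg_apply]
      simp only [mul_assoc]
    rw [dw, mul_add, trace_add, h, ih]
    simp only [T, add_mul, trace_add, Finset.sum_add_distrib]
    congr 1
    rw [Finset.sum_eq_single i]
    · simp
    · intro j _ hj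
      simp [Ne.symm hj]
    · simp

/-- the augmentation ideal applied to a submodule -/
def I (X : Fin 3 → (Mt B)) (S : Submodule B (Mt B)) : Submodule B (Mt B) := ⨆ i, S.map (th (X i))

theorem mem_I {X : Fin 3 → (Mt B)} {S : Submodule B (Mt B)} {N : (Mt B)} (h : N ∈ S) (i : Fin 3) :
    th (X i) N ∈ I X S :=
  Submodule.mem_iSup_of_mem i (Submodule.mem_map_of_mem h)

theorem I_le {X : Fin 3 → (Mt B)} {S S' : Submodule B (Mt B)} (h : ∀ i, ∀ N ∈ S, th (X i) N ∈ S') :
    I X S ≤ S' :=
  iSup_le fun i => Submodule.map_le_iff_le_comap.2 fun N hN => h i N hN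

theorem I_mono {X : Fin 3 → (Mt B)} {S S' : Submodule B (Mt B)} (h : S ≤ S') : I X S ≤ I X S' :=
  I_le fun i _ hN => mem_I (h hN) i

theorem I_sup (X : Fin 3 → (Mt B)) (S S' : Submodule B (Mt B)) : I X (S ⊔ S') ≤ I X S ⊔ I X S' :=
  I_le fun i N hN => by
    obtain ⟨a, ha, b, hb, rfl⟩ := Submodule.mem_sup.1 hN
    rw [map_add]
    exact Submodule.add_mem_sup (mem_I ha i) (mem_I hb i)

theorem I_smul (X : Fin 3 → (Mt B)) (J : Ideal B) (S : Submodule B (Mt B)) : I X (J • S) ≤ J • I X S :=
  iSup_le fun i => by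
    rw [Submodule.map_smul'']
    exact Submodule.smul_mono le_rfl (le_iSup (fun i => S.map (th (X i))) i)

theorem mem_smul_top {J : Ideal B} {Z : (Mt B)} (h : ∀ p q, Z p q ∈ J) :
    Z ∈ J • (⊤ : Submodule B (Mt B)) := by
  rw [matrix_eq_sum_single Z]
  refine Submodule.sum_mem _ fun p _ => Submodule.sum_mem _ fun q _ => ?_
  have : single p q (Z p q) = Z p q • (single p q 1 : (Mt B)) := by
    rw [smul_single, smul_eq_mul, mul_one]
  rw [this]
  exact Submodule.smul_mem_smul (h p q) trivial

theorem magnus [CharP B 2] (X : Fin 3 → (Mt B)) (S : Submodule B (Mt B)) (hS : I X S ≤ S) (j : Fin 3)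
    (w : Wd) : ∀ N ∈ S, T X j w N - (ZMod.castHom (dvd_refl 2) B (mA j w) • N +
      ∑ i, ZMod.castHom (dvd_refl 2) B (mC i j w) • th (X i) N) ∈ I X (I X S) := by
  induction w with
  | nil => intro N _; simp [T, mA, fx, mC]
  | cons k w ih =>
    intro N hN
    have h1 : sg (X k) N ∈ S := by
      rw [sg_eq]; exact S.add_mem hN (hS (mem_I hN k))
    have h2 := ih _ h1
    have h3 : ∑ i, ZMod.castHom (dvd_refl 2) B (mC i j w) • th (X i) (th (X k) N) ∈
        I X (I X S) :=
      Submodule.sum_mem _ fun i _ => Submodule.smul_mem _ _ (mem_I (mem_I hN k) i)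
    have h4 : ∑ i, ZMod.castHom (dvd_refl 2) B (if k = i then mA j w else 0) • th (X i) N =
        ZMod.castHom (dvd_refl 2) B (mA j w) • th (X k) N := by
      rw [Finset.sum_eq_single k]
      · rw [if_pos rfl]
      · intro i _ hi
        rw [if_neg (Ne.symm hi), map_zero, zero_smul]
      · simp
    have h5 : ZMod.castHom (dvd_refl 2) B (mA j (k :: w)) • N =
        (if k = j then N else 0) + ZMod.castHom (dvd_refl 2) B (mA j w) • N := by
      have : mA j (k :: w) = (if k = j then 1 else 0) + mA j w := by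
        simp only [mA, fx, one_mul]
      rw [this, map_add, add_smul]
      split_ifs
      · rw [map_one, one_smul]
      · rw [map_zero, zero_smul]
    have h6 := Submodule.add_mem _ h2 h3
    have e : T X j (k :: w) N - (ZMod.castHom (dvd_refl 2) B (mA j (k :: w)) • N +
        ∑ i, ZMod.castHom (dvd_refl 2) B (mC i j (k :: w)) • th (X i) N) =
        T X j w (sg (X k) N) - (ZMod.castHom (dvd_refl 2) B (mA j w) • sg (X k) N +
          ∑ i, ZMod.castHom (dvd_refl 2) B (mC i j w) • th (X i) (sg (X k) N)) +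
        ∑ i, ZMod.castHom (dvd_refl 2) B (mC i j w) • th (X i) (th (X k) N) := by
      rw [h5, T]
      simp only [mC, map_add, add_smul, Finset.sum_add_distrib, h4]
      simp only [sg_eq (X k) N, map_add, smul_add, Finset.sum_add_distrib]
      abel
    rw [e]
    exact h6

variable [IsLocalRing B]

theorem th_one {X : (Mt B)} (h : X.det = 1) : th X 1 = 0 := by
  rw [th_apply, one_mul, adjugate_mul, h, one_smul, sub_self]

theorem uni_eq {X : (Mt B)} (h : Uni X) : residue B (X 0 0) = 1 ∧ residue B (X 1 0) = 0 ∧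
    residue B (X 1 1) = 1 := by
  obtain ⟨-, a, b, c⟩ := h
  rw [← residue_eq_zero_iff] at a b c
  rw [map_sub, map_one, sub_eq_zero] at a c
  exact ⟨a, b, c⟩

theorem th_th [CharP B 2] {X X' : (Mt B)} (h : Uni X) (h' : Uni X') (Z : (Mt B)) (p q : Fin 2) :
    th X (th X' Z) p q ∈ maximalIdeal B := by
  obtain ⟨a, b, c⟩ := uni_eq h
  obtain ⟨a', b', c'⟩ := uni_eq h'
  have h2 : (2 : ResidueField B) = 0 := by
    have : residue B 2 = 0 := by rw [CharTwo.two_eq_zero, map_zero]
    rwa [map_ofNat] at this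
  have ent : ∀ (X Z : (Mt B)) (p q : Fin 2), th X Z p q =
      X.adjugate p 0 * (Z 0 0 * X 0 q + Z 0 1 * X 1 q) +
      X.adjugate p 1 * (Z 1 0 * X 0 q + Z 1 1 * X 1 q) - Z p q := by
    intro X Z p q
    simp only [th_apply, Matrix.sub_apply, Matrix.mul_apply, Fin.sum_univ_two]
  have ad : ∀ X : (Mt B), X.adjugate 0 0 = X 1 1 ∧ X.adjugate 0 1 = -X 0 1 ∧
      X.adjugate 1 0 = -X 1 0 ∧ X.adjugate 1 1 = X 0 0 := by
    intro X
    simp [adjugate_fin_two]
  obtain ⟨e1, e2, e3, e4⟩ := ad X
  obtain ⟨f1, f2, f3, f4⟩ := ad X'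
  rw [← residue_eq_zero_iff]
  have hp : ∀ p : Fin 2, p = 0 ∨ p = 1 := by decide
  rcases hp p with rfl | rfl <;> rcases hp q with rfl | rfl <;>
    simp only [ent, e1, e2, e3, e4, f1, f2, f3, f4, map_add, map_sub, map_mul, map_neg, a, b, c,
      a', b', c']
  · ring
  · linear_combination (-(residue B (X 0 1) * residue B (X' 0 1) * residue B (Z 1 0))) * h2
  · ring
  · ring

theorem II_top [CharP B 2] {X : Fin 3 → (Mt B)} (h : ∀ i, Uni (X i)) :
    I X (I X ⊤) ≤ maximalIdeal B • ⊤ :=
  I_le fun i N hN => by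
    have : I X ⊤ ≤ (maximalIdeal B • ⊤ : Submodule B (Mt B)).comap (th (X i)) :=
      I_le fun k Z _ => mem_smul_top (th_th (h i) (h k) Z)
    exact this hN

theorem closed [IsNoetherianRing B] {S : Submodule B (Mt B)} {x : (Mt B)}
    (h : ∀ k : ℕ, x ∈ S ⊔ (maximalIdeal B ^ k) • ⊤) : x ∈ S := by
  have h0 := Ideal.iInf_pow_smul_eq_bot_of_isLocalRing (M := (Mt B) ⧸ S) (maximalIdeal B)
    (maximalIdeal.isMaximal B).ne_top
  have : S.mkQ x ∈ (⨅ k : ℕ, maximalIdeal B ^ k • ⊤ : Submodule B ((Mt B) ⧸ S)) := by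
    refine (Submodule.mem_iInf _).2 fun k => ?_
    obtain ⟨a, ha, b, hb, rfl⟩ := Submodule.mem_sup.1 (h k)
    rw [map_add, S.mkQ_apply a, (Submodule.Quotient.mk_eq_zero S).2 ha, zero_add]
    have := Submodule.mem_map_of_mem (f := S.mkQ) hb
    rw [Submodule.map_smul''] at this
    exact Submodule.smul_mono le_rfl le_top this
  rw [h0] at this
  exact (Submodule.Quotient.mk_eq_zero S).1 this

end Fox

open Fox in
theorem foxS : FoxS := by
  intro U hU B _ _ _ _ X hX N μ hL
  -- the limits of the dual Fox operators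
  have hT : ∀ j p q, Lim (maximalIdeal B) U (fun w => T X j w N p q)
      ((μ j • (1 : Matrix (Fin 2) (Fin 2) B)) p q) := by
    intro j p q
    have h := hL (Pi.single j (single q p 1))
    have e1 : ∀ w, (N * dw X (Pi.single j (single q p 1)) w).trace = T X j w N p q := by
      intro w
      rw [tr_dw, Finset.sum_eq_single j]
      · rw [Pi.single_eq_same, trace_mul_single]; simp
      · intro i _ hi
        rw [Pi.single_eq_of_ne hi, mul_zero, trace_zero]
      · simp
    have e2 : ∑ i, μ i * ((Pi.single j (single q p 1) : Fin 3 → Matrix (Fin 2) (Fin 2) B) i).trace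
        = (μ j • (1 : Matrix (Fin 2) (Fin 2) B)) p q := by
      rw [Finset.sum_eq_single j]
      · rw [Pi.single_eq_same]
        fin_cases p <;> fin_cases q <;> simp [trace_fin_two]
      · intro i _ hi
        rw [Pi.single_eq_of_ne hi, trace_zero, mul_zero]
      · simp
    simp only [e1, e2] at h
    exact h
  set S0 : Submodule B (Matrix (Fin 2) (Fin 2) B) := sInf {S | N ∈ S ∧ I X S ≤ S} with hS0
  have hN : N ∈ S0 := Submodule.mem_sInf.2 fun S hS => hS.1
  have hI : I X S0 ≤ S0 := le_sInf fun S hS => (I_mono (sInf_le hS)).trans hS.2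
  have hle : S0 ≤ Submodule.span B {N} ⊔ I X S0 := by
    refine sInf_le ⟨Submodule.mem_sup_left (Submodule.mem_span_singleton_self N), ?_⟩
    refine (I_mono (sup_le ?_ hI)).trans le_sup_right
    exact (Submodule.span_singleton_le_iff_mem _ _).2 hN
  set C : Submodule B (Matrix (Fin 2) (Fin 2) B) := Submodule.span B {1} with hC
  have key : ∀ j, th (X (hp j)) N ∈ C ⊔ I X (I X S0) := by
    intro j
    refine closed fun k => ?_
    have h1 : ∀ᶠ w in (U : Filter Wd), ∀ p q,
        T X j w N p q - (μ j • (1 : Matrix (Fin 2) (Fin 2) B)) p q ∈ maximalIdeal B ^ k :=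
      eventually_all.2 fun p => eventually_all.2 fun q => hT j p q k
    obtain ⟨w, ⟨hA, hM⟩, hw⟩ := (hU.mag.and h1).exists
    have h2 := magnus X S0 hI j w N hN
    have h3 : ∑ i, ZMod.castHom (dvd_refl 2) B (mC i j w) • th (X i) N = th (X (hp j)) N := by
      rw [Finset.sum_eq_single (hp j)]
      · rw [hM, if_pos rfl, map_one, one_smul]
      · intro i _ hi
        rw [hM, if_neg hi, map_zero, zero_smul]
      · simp
    rw [hA, map_zero, zero_smul, zero_add, h3] at h2
    have h4 : T X j w N - μ j • (1 : Matrix (Fin 2) (Fin 2) B) ∈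
        (maximalIdeal B ^ k • ⊤ : Submodule B (Matrix (Fin 2) (Fin 2) B)) :=
      mem_smul_top fun p q => hw p q
    have e : th (X (hp j)) N = (μ j • (1 : Matrix (Fin 2) (Fin 2) B) +
        -(T X j w N - th (X (hp j)) N)) + (T X j w N - μ j • (1 : Matrix (Fin 2) (Fin 2) B)) := by
      abel
    rw [e]
    exact Submodule.add_mem_sup (Submodule.add_mem_sup
      (C.smul_mem _ (Submodule.mem_span_singleton_self _)) (Submodule.neg_mem _ h2)) h4
  have key' : ∀ i, th (X i) N ∈ C ⊔ I X (I X S0) := fun i => by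
    have : ∀ i, hp (hp i) = i := by decide
    have h := key (hp i)
    rwa [this] at h
  have hIC : I X C ≤ ⊥ := I_le fun i Z hZ => by
    obtain ⟨c, rfl⟩ := Submodule.mem_span_singleton.1 hZ
    rw [map_smul, th_one (hX i).1, smul_zero]
    exact Submodule.zero_mem _
  have h1 : I X S0 ≤ C ⊔ I X (I X S0) := by
    refine (I_mono hle).trans ((I_sup X _ _).trans (sup_le ?_ le_sup_right))
    refine I_le fun i Z hZ => ?_
    obtain ⟨c, rfl⟩ := Submodule.mem_span_singleton.1 hZ
    rw [map_smul]
    exact Submodule.smul_mem _ _ (key' i)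
  set S2 := I X (I X S0) with hS2
  have h2 : S2 ≤ I X S2 :=
    (I_mono h1).trans ((I_sup X _ _).trans (sup_le (hIC.trans bot_le) le_rfl))
  have h3 : ∀ k : ℕ, S2 ≤ maximalIdeal B ^ k • ⊤ := by
    intro k
    induction k with
    | zero => rw [pow_zero, Ideal.one_eq_top, Submodule.top_smul]; exact le_top
    | succ k ih =>
      refine (h2.trans (I_mono h2)).trans ((I_mono (I_mono ih)).trans ?_)
      refine (I_mono (I_smul X _ _)).trans ((I_smul X _ _).trans ?_)
      rw [pow_succ, mul_smul]
      exact Submodule.smul_mono le_rfl (II_top hX)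
  have h4 : S2 ≤ ⊥ := fun x hx => closed fun k => Submodule.mem_sup_right (h3 k hx)
  intro i
  have h5 : th (X i) N ∈ C := (sup_le le_rfl (h4.trans bot_le)) (key' i)
  obtain ⟨c, hc⟩ := Submodule.mem_span_singleton.1 h5
  refine ⟨c, ?_⟩
  have h6 : (X i).adjugate * (N * X i) = N + c • 1 := by
    rw [hc, th_apply]; abel
  have h7 : N * X i = X i * (N + c • 1) := by
    rw [← h6, ← mul_assoc, mul_adjugate, (hX i).1, one_smul, one_mul]
  have h8 : c • X i + c • X i = 0 := by
    rw [← add_smul, CharTwo.add_self_eq_zero, zero_smul]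
  rw [add_mul, h7, mul_add, mul_smul_comm, mul_one, smul_mul_assoc, one_mul, add_assoc, h8,
    add_zero]

end Vale.Agent.P022D.L2
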