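import Vale.Agent.P022D.L2.Defs

/-!
# P022, block L2: a relation of Hilbert type exists
-/

set_option linter.all false

noncomputable section

namespace Vale.Agent.P022D.L2

open Filter

namespace RelP

theorem ev_nil {M : Type*} [Monoid M] (X : Fin 3 → M) : ev X [] = 1 := rfl

theorem ev_cons {M : Type*} [Monoid M] (X : Fin 3 → M) (i : Fin 3) (w : Wd) :
    ev X (i :: w) = X i * ev X w := by simp [ev]

theorem ev_app {M : Type*} [Monoid M] (X : Fin 3 → M) (w w' : Wd) :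
    ev X (w ++ w') = ev X w * ev X w' := by simp [ev]

theorem ev_map {M M' : Type*} [Monoid M] [Monoid M'] (ρ : M →* M') (X : Fin 3 → M) (w : Wd) :
    ev (fun i => ρ (X i)) w = ρ (ev X w) := by
  induction w with
  | nil => simp [ev_nil]
  | cons i w ih => rw [ev_cons, ev_cons, map_mul, ih]

theorem mA_cons (j i : Fin 3) (w : Wd) : mA j (i :: w) = (if i = j then 1 else 0) + mA j w := by
  simp [mA, fx]

theorem mA_app (j : Fin 3) (w w' : Wd) : mA j (w ++ w') = mA j w + mA j w' := by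
  induction w with
  | nil => simp [mA, fx]
  | cons i w ih => rw [List.cons_append, mA_cons, mA_cons, ih, add_assoc]

theorem mC_app (i j : Fin 3) (w w' : Wd) :
    mC i j (w ++ w') = mC i j w + mC i j w' + mA i w * mA j w' := by
  induction w with
  | nil => simp [mA, fx, mC]
  | cons k w ih =>
    rw [List.cons_append, mC, mC, ih, mA_cons, mA_app]
    split_ifs <;> ring

theorem mC_sym {i j : Fin 3} (h : i ≠ j) (w : Wd) : mC i j w + mC j i w = mA i w * mA j w := by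
  induction w with
  | nil => simp [mA, fx, mC]
  | cons k w ih =>
    rw [mC, mC, mA_cons, mA_cons]
    by_cases h1 : k = i
    · have h2 : k ≠ j := h1 ▸ h
      rw [if_pos h1, if_neg h2, if_pos h1, if_neg h2]
      linear_combination ih
    · by_cases h2 : k = j
      · rw [if_neg h1, if_pos h2, if_neg h1, if_pos h2]
        linear_combination ih
      · rw [if_neg h1, if_neg h2, if_neg h1, if_neg h2]
        linear_combination ih

variable {G : Type} [Group G] [TopologicalSpace G]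

theorem coc_one {A : Type*} [CommRing A] {e u : G → A} (h : Coc e u) (he : e 1 = 1) : u 1 = 0 := by
  have := h.2 1 1
  rw [one_mul, he, one_mul] at this
  linear_combination -this

theorem coc_ev {A : Type*} [CommRing A] {e u : G → A} (h : Coc e u) (he : e 1 = 1) (g : Fin 3 → G)
    (w : Wd) : u (ev g w) = ∑ j, u (g j) * fx (fun i => e (g i)) j w := by
  induction w with
  | nil => simp [ev_nil, fx, coc_one h he]
  | cons k w ih =>
    rw [ev_cons, h.2, ih]
    simp only [fx, mul_add, Finset.sum_add_distrib, mul_ite, mul_one, mul_zero, Finset.sum_ite_eq,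
      Finset.mem_univ, if_true, Finset.mul_sum]
    exact congrArg _ (Finset.sum_congr rfl fun j _ => by ring)

theorem hom_ev {b : G → ZMod 2} (h : Coc (fun _ => 1) b) (g : Fin 3 → G) (w : Wd) :
    b (ev g w) = ∑ j, b (g j) * mA j w := coc_ev h rfl g w

theorem cup_ev {b b' z : G → ZMod 2} (h : Coc (fun _ => 1) b) (h' : Coc (fun _ => 1) b')
    (hz : ∀ x y, z (x * y) = z x + z y + b x * b' y) (g : Fin 3 → G) (w : Wd) :
    z (ev g w) = ∑ i, ∑ j, b (g i) * b' (g j) * mC i j w + ∑ j, z (g j) * mA j w := by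
  induction w with
  | nil =>
    have := hz 1 1
    rw [one_mul, coc_one h rfl, zero_mul, add_zero] at this
    simp only [ev_nil, mC, mA, fx, mul_zero, Finset.sum_const_zero, add_zero]
    linear_combination -this
  | cons k w ih =>
    rw [ev_cons, hz, ih, hom_ev h' g w]
    simp only [mC, mA_cons, Fin.sum_univ_three]
    fin_cases k <;> simp <;> ring

/-- open normal subgroups with a 2-group as quotient -/
structure Ok (N : Subgroup G) : Prop where
  nm : N.Normal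
  op : IsOpen (N : Set G)
  pw : ∀ x, ∃ k : ℕ, x ^ 2 ^ k ∈ N

theorem Ok.inf {N N' : Subgroup G} (h : Ok N) (h' : Ok N') : Ok (N ⊓ N') := by
  haveI := h.nm
  haveI := h'.nm
  refine ⟨inferInstance, h.op.inter h'.op, fun x => ?_⟩
  obtain ⟨k, hk⟩ := h.pw x
  obtain ⟨l, hl⟩ := h'.pw x
  refine ⟨k + l, ?_, ?_⟩
  · rw [pow_add, pow_mul]
    exact N.pow_mem hk _
  · rw [pow_add, mul_comm, pow_mul]
    exact N'.pow_mem hl _

theorem ok_ker {M : Type} [Monoid M] {ρ : G →* M} (h : Two ρ) : Ok ρ.ker :=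
  ⟨inferInstance, h.1, fun x => (h.2 x).imp fun k hk => by rw [MonoidHom.mem_ker, map_pow, hk]⟩

theorem ok_cup {b b' : G → ZMod 2} (h : Coc (fun _ => 1) b) (h' : Coc (fun _ => 1) b')
    (hc : Cup0 b b') : ∃ N, Ok N ∧ (∀ x ∈ N, b x = 0 ∧ b' x = 0) ∧ ∀ (g : Fin 3 → G) (w : Wd),
      ev g w ∈ N → (∀ j, mA j w = 0) → ∑ i, ∑ j, b (g i) * b' (g j) * mC i j w = 0 := by
  obtain ⟨z, z1, z2⟩ := hc
  have two : ∀ t : ZMod 2, t + t = 0 := by decide
  have b1 := coc_one h rfl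
  have b2 := coc_one h' rfl
  have m1 : ∀ x y, b (x * y) = b x + b y := fun x y => by rw [h.2, one_mul]
  have m2 : ∀ x y, b' (x * y) = b' x + b' y := fun x y => by rw [h'.2, one_mul]
  have z0 : z 1 = 0 := by
    have := z2 1 1
    rw [one_mul, b1, zero_mul, add_zero] at this
    linear_combination -this
  refine ⟨⟨⟨⟨{x | b x = 0 ∧ b' x = 0 ∧ z x = 0}, fun {x y} hx hy => ?_⟩, b1, b2, z0⟩,
    fun {x} hx => ?_⟩, ⟨⟨fun x hx y => ?_⟩, ?_, fun x => ⟨2, ?_⟩⟩, fun x hx => ⟨hx.1, hx.2.1⟩,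
    fun g w hw hA => ?_⟩
  · exact ⟨by rw [m1, hx.1, hy.1, add_zero], by rw [m2, hx.2.1, hy.2.1, add_zero],
      by rw [z2, hx.1, hx.2.2, hy.2.2]; ring⟩
  · have a1 := m1 x x⁻¹
    have a2 := m2 x x⁻¹
    have a3 := z2 x x⁻¹
    rw [mul_inv_cancel] at a1 a2 a3
    rw [hx.1] at a1 a3
    exact ⟨by linear_combination b1 - a1, by linear_combination b2 - a2 - hx.2.1,
      by linear_combination z0 - a3 - hx.2.2⟩
  · have a1 := m1 y y⁻¹
    have a2 := m2 y y⁻¹
    have a3 := z2 y y⁻¹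
    rw [mul_inv_cancel] at a1 a2 a3
    refine ⟨?_, ?_, ?_⟩
    · rw [m1, m1, hx.1]
      linear_combination b1 - a1
    · rw [m2, m2, hx.2.1]
      linear_combination b2 - a2
    · rw [z2, z2, m1, hx.1, hx.2.1, hx.2.2]
      linear_combination z0 - a3
  · exact (h.1.isOpen_fiber 0).inter ((h'.1.isOpen_fiber 0).inter (z1.isOpen_fiber 0))
  · have e : x ^ 2 ^ 2 = x * x * (x * x) := by
      rw [show 2 ^ 2 = 2 + 2 by norm_num, pow_add, pow_two]
    rw [e]
    exact ⟨by rw [m1, two], by rw [m2, two], by rw [z2, two, m1, two]; ring⟩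
  · have := cup_ev h h' z2 g w
    rw [hw.2.2] at this
    simp only [hA, mul_zero, Finset.sum_const_zero, add_zero] at this
    exact this.symm

theorem ok_cyc {χ : G →* ZMod 8} (hχ : IsLocallyConstant χ) {u : G → ZMod 8} (h : Coc χ u) :
    ∃ N, Ok N ∧ ∀ x ∈ N, u x = 0 := by
  have u1 := coc_one h χ.map_one
  have sq : ∀ s t : ZMod 8, s * t = 1 → s * s = 1 := by decide
  refine ⟨⟨⟨⟨{x | χ x = 1 ∧ u x = 0}, fun {x y} hx hy => ?_⟩, χ.map_one, u1⟩,
    fun {x} hx => ?_⟩, ⟨⟨fun x hx y => ?_⟩, ?_, fun x => ⟨4, ?_⟩⟩, fun x hx => hx.2⟩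
  · exact ⟨by rw [map_mul, hx.1, hy.1, one_mul], by rw [h.2, hx.2, hy.2]; ring⟩
  · have a1 := χ.map_mul x x⁻¹
    have a2 := h.2 x x⁻¹
    rw [mul_inv_cancel, hx.1, one_mul] at a1 a2
    exact ⟨by rw [← a1, map_one], by linear_combination u1 - a2 - hx.2⟩
  · have a1 := χ.map_mul y y⁻¹
    have a2 := h.2 y y⁻¹
    rw [mul_inv_cancel] at a1 a2
    refine ⟨?_, ?_⟩
    · rw [map_mul, map_mul, hx.1, mul_one, ← a1, map_one]
    · rw [h.2, h.2, map_mul, hx.1, hx.2]
      linear_combination u1 - a2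
  · exact (hχ.isOpen_fiber 1).inter (h.1.isOpen_fiber 0)
  · have a1 : χ (x ^ 2) = 1 := by
      rw [pow_two, map_mul]
      exact sq _ (χ x⁻¹) (by rw [← map_mul, mul_inv_cancel, map_one])
    have a2 : ∀ n : ℕ, u ((x ^ 2) ^ n) = n * u (x ^ 2) := fun n => by
      induction n with
      | zero => simp [u1]
      | succ n ih =>
        rw [pow_succ', h.2, ih, a1]
        push_cast
        ring
    rw [show 2 ^ 4 = 2 * 8 by norm_num, pow_mul]
    exact ⟨by rw [map_pow, a1, one_pow], by rw [a2, show ((8 : ℕ) : ZMod 8) = 0 from rfl, zero_mul]⟩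

variable [IsTopologicalGroup G]

theorem lc_of {N : Subgroup G} (h : Ok N) {A : Type*} {b : G → A}
    (hb : ∀ x y, x⁻¹ * y ∈ N → b y = b x) : IsLocallyConstant b :=
  (IsLocallyConstant.iff_exists_open b).2 fun x =>
    ⟨{y | x⁻¹ * y ∈ N}, h.op.preimage (continuous_const.mul continuous_id),
      by simp [N.one_mem], fun y hy => hb x y hy⟩

theorem idx {Q : Type*} [Group Q] [Finite Q] (hQ : IsPGroup 2 Q) {K : Subgroup Q}
    (hK : IsCoatom K) : K.index = 2 := by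
  haveI : Fact (Nat.Prime 2) := ⟨Nat.prime_two⟩
  haveI := hQ.isNilpotent
  haveI hn : K.Normal := Subgroup.NormalizerCondition.normal_of_coatom K
    normalizerCondition_of_isNilpotent hK
  obtain ⟨z, z1, z2⟩ : ∃ z, z ∉ K ∧ z * z ∈ K := by
    by_contra c
    simp only [not_exists, not_and] at c
    refine hK.1 (eq_top_iff.2 fun y _ => by_contra fun hy => ?_)
    obtain ⟨k, hk⟩ := hQ y
    have : ∀ n : ℕ, y ^ 2 ^ n ∉ K := fun n => by
      induction n with
      | zero => simpa using hy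
      | succ n ih =>
        rw [pow_succ, pow_mul, pow_two]
        exact c _ ih
    exact this k (hk ▸ K.one_mem)
  refine Subgroup.index_eq_two_iff'.2 ⟨z, fun y => ?_⟩
  have key : (⟨⟨⟨{y | z * y ∈ K ∨ y ∈ K}, fun {x y} hx hy => ?_⟩, Or.inr K.one_mem⟩,
      fun {x} hx => ?_⟩ : Subgroup Q) = ⊤ :=
    hK.2 _ (lt_of_le_of_ne (fun x hx => Or.inr hx) fun e => z1 (by rw [e]; exact Or.inl z2))
  · have : z * y ∈ K ∨ y ∈ K := by
      have := Subgroup.mem_top y
      rwa [← key] at this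
    rcases this with k | k
    · exact Or.inl ⟨k, fun k' => z1 (by simpa using K.mul_mem k (K.inv_mem k'))⟩
    · exact Or.inr ⟨k, fun k' => z1 (by simpa using K.mul_mem k' (K.inv_mem k))⟩
  · rcases hx with hx | hx <;> rcases hy with hy | hy
    · refine Or.inr ?_
      have := K.mul_mem (K.mul_mem (K.inv_mem z2) (hn.conj_mem _ hx z)) (hn.conj_mem _ hy 1)
      rwa [show (z * z)⁻¹ * (z * (z * x) * z⁻¹) * (1 * (z * y) * 1⁻¹) = x * y by group] at this
    · exact Or.inl (by rw [← mul_assoc]; exact K.mul_mem hx hy)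
    · refine Or.inl ?_
      have := K.mul_mem (hn.conj_mem _ hx z) hy
      rwa [show z * x * z⁻¹ * (z * y) = z * (x * y) by group] at this
    · exact Or.inr (K.mul_mem hx hy)
  · rcases hx with hx | hx
    · refine Or.inl ?_
      have h5 := K.mul_mem (K.inv_mem hx) z2
      have h6 := hn.conj_mem _ h5 z
      rwa [show z * ((z * x)⁻¹ * (z * z)) * z⁻¹ = z * x⁻¹ by group] at h6
    · exact Or.inr (K.inv_mem hx)

variable [CompactSpace G] {g : Fin 3 → G} {a : Fin 3 → G → ZMod 2}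

theorem gen (L : Loc2 g a) {N : Subgroup G} (h : Ok N) (x : G) :
    ∃ w : Wd, (ev g w)⁻¹ * x ∈ N := by
  classical
  haveI := h.nm
  haveI := Subgroup.quotient_finite_of_isOpen N h.op
  have hQ : IsPGroup 2 (G ⧸ N) := fun y => by
    obtain ⟨x, rfl⟩ := QuotientGroup.mk_surjective y
    obtain ⟨k, hk⟩ := h.pw x
    exact ⟨k, by rw [← QuotientGroup.mk_pow, QuotientGroup.eq_one_iff]; exact hk⟩
  obtain ⟨H, hH⟩ : ∃ H : Subgroup (G ⧸ N), ∀ y, y ∈ H ↔ ∃ w, ((ev g w : G) : G ⧸ N) = y := by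
    have pw : ∀ (w : Wd) (n : ℕ), ∃ w', ev g w' = ev g w ^ n := fun w n => by
      induction n with
      | zero => exact ⟨[], by rw [pow_zero, ev_nil]⟩
      | succ n ih =>
        obtain ⟨w', e⟩ := ih
        exact ⟨w' ++ w, by rw [ev_app, e, pow_succ]⟩
    refine ⟨⟨⟨⟨{y | ∃ w, ((ev g w : G) : G ⧸ N) = y}, ?_⟩, [], rfl⟩, ?_⟩, fun _ => Iff.rfl⟩
    · rintro _ _ ⟨w, rfl⟩ ⟨w', rfl⟩
      exact ⟨w ++ w', by rw [ev_app, QuotientGroup.mk_mul]⟩
    · rintro _ ⟨w, rfl⟩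
      obtain ⟨k, hk⟩ := hQ (ev g w : G)
      obtain ⟨w', e⟩ := pw w (2 ^ k - 1)
      refine ⟨w', eq_inv_of_mul_eq_one_left ?_⟩
      rw [e, QuotientGroup.mk_pow, ← pow_succ, Nat.sub_add_cancel Nat.one_le_two_pow, hk]
  rcases eq_top_or_exists_le_coatom H with e | ⟨K, k1, k2⟩
  · obtain ⟨w, hw⟩ := (hH x).1 (e ▸ Subgroup.mem_top _)
    exact ⟨w, QuotientGroup.eq.1 hw⟩
  · have i2 := idx hQ k1
    have := L.gen (fun x => if (x : G ⧸ N) ∈ K then 0 else 1)
      ⟨lc_of h fun x y e => by rw [QuotientGroup.eq.2 e], fun x y => by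
        simp only [QuotientGroup.mk_mul, Subgroup.mul_mem_iff_of_index_two i2, one_mul]
        by_cases c : (x : G ⧸ N) ∈ K <;> by_cases d : (y : G ⧸ N) ∈ K <;> simp [c, d]
        rfl⟩
      fun j => if_pos (k2 ((hH _).2 ⟨[j], by rw [ev_cons, ev_nil, mul_one]⟩))
    refine (k1.1 (eq_top_iff.2 fun y _ => ?_)).elim
    obtain ⟨x, rfl⟩ := QuotientGroup.mk_surjective y
    by_contra c
    have := this x
    simp only [if_neg c] at this
    exact one_ne_zero this

theorem a_ev (L : Loc2 g a) (i : Fin 3) (w : Wd) : a i (ev g w) = mA i w := by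
  rw [hom_ev (L.hom i)]
  simp [L.dual]

theorem ex00 (L : Loc2 g a) {N : Subgroup G} (h : Ok N) (h0 : ∀ x ∈ N, a 0 x = 0) :
    ∃ w, ev g w ∈ N ∧ mC 0 0 w = 1 := by
  by_contra c
  have c' : ∀ w, ev g w ∈ N → mC 0 0 w = 0 := fun w hw => by
    have : ∀ t : ZMod 2, t ≠ 1 → t = 0 := by decide
    exact this _ fun e => c ⟨w, hw, e⟩
  have m : ∀ x y, x⁻¹ * y ∈ N → a 0 y = a 0 x := fun x y e => by
    have := (L.hom 0).2 x (x⁻¹ * y)
    rwa [mul_inv_cancel_left, h0 _ e, mul_zero, add_zero] at this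
  have wd : ∀ w w', (ev g w)⁻¹ * ev g w' ∈ N → mC 0 0 w' = mC 0 0 w := fun w w' e => by
    obtain ⟨v, hv⟩ := gen L h (ev g w)⁻¹
    have a1 : ev g (w ++ v) ∈ N := by
      have := N.inv_mem hv
      rwa [mul_inv_rev, inv_inv, inv_inv, ← ev_app] at this
    have a2 : ev g (w' ++ v) ∈ N := by
      have := N.mul_mem (h.nm.conj_mem _ e (ev g w)) a1
      rw [ev_app] at this ⊢
      rwa [show ev g w * ((ev g w)⁻¹ * ev g w') * (ev g w)⁻¹ * (ev g w * ev g v) =
        ev g w' * ev g v by group] at this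
    have b1 := c' _ a1
    have b2 := c' _ a2
    rw [mC_app] at b1 b2
    rw [← a_ev L 0 w', m _ _ e, a_ev L] at b2
    linear_combination b2 - b1
  choose W hW using gen L h
  refine L.c00 ⟨fun x => mC 0 0 (W x), lc_of h fun x y e => wd _ _ ?_, fun x y => ?_⟩
  · have := N.mul_mem (N.mul_mem (hW x) e) (N.inv_mem (hW y))
    rwa [show (ev g (W x))⁻¹ * x * (x⁻¹ * y) * ((ev g (W y))⁻¹ * y)⁻¹ =
      (ev g (W x))⁻¹ * ev g (W y) by group] at this
  · rw [m _ _ (hW x), m _ _ (hW y), a_ev L, a_ev L, ← mC_app]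
    refine wd _ _ ?_
    have := N.mul_mem (N.mul_mem (h.nm.conj_mem _ (hW x) (ev g (W y))⁻¹) (hW y))
      (N.inv_mem (hW (x * y)))
    rw [ev_app]
    rwa [show (ev g (W y))⁻¹ * ((ev g (W x))⁻¹ * x) * (ev g (W y))⁻¹⁻¹ * ((ev g (W y))⁻¹ * y) *
      ((ev g (W (x * y)))⁻¹ * (x * y))⁻¹ = (ev g (W x) * ev g (W y))⁻¹ * ev g (W (x * y)) by
        group] at this

theorem lin {f : Fin 3 → ZMod 8} {m : Fin 3 → Fin 3 → ZMod 8}
    (hm : ∀ i j, ZMod.castHom (show 2 ∣ 8 by norm_num) (ZMod 2) (m i j) = if i = j then 1 else 0)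
    (h : ∀ i, ∑ j, m i j * f j = 0) (j : Fin 3) : f j = 0 := by
  have d : ∀ (x : ZMod 8) (p : Prop) [Decidable p],
      ZMod.castHom (show 2 ∣ 8 by norm_num) (ZMod 2) x = (if p then 1 else 0) →
      ∃ v, x = (if p then 1 else 0) + 2 * v := fun x p _ => by
    split_ifs
    · revert x
      decide
    · revert x
      decide
  choose v hv using fun i j => d (m i j) (i = j) (hm i j)
  have k : ∀ n : ℕ, ∀ j, ∃ t, f j = 2 ^ n * t := fun n => by
    induction n with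
    | zero => exact fun j => ⟨f j, by simp⟩
    | succ n ih =>
      choose t ht using ih
      refine fun i => ⟨-∑ j, v i j * t j, ?_⟩
      have := h i
      simp only [hv, add_mul, Finset.sum_add_distrib, ite_mul, one_mul, zero_mul,
        Finset.sum_ite_eq, Finset.mem_univ, if_true] at this
      rw [eq_neg_of_add_eq_zero_left this, mul_neg, Finset.mul_sum]
      exact congrArg _ (Finset.sum_congr rfl fun j _ => by rw [ht j]; ring)
  obtain ⟨t, ht⟩ := k 3 j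
  rw [ht, show (2 : ZMod 8) ^ 3 = 0 from rfl, zero_mul]

end RelP

open RelP in
theorem relS : RelS := by
  intro G _ _ _ _ g a L
  obtain ⟨χ, u, χ1, χ2, χ3, χ4⟩ := L.cyc
  have ad : ∀ i j, Coc (fun _ => 1) (a i + a j) := fun i j =>
    ⟨(L.hom i).1.add (L.hom j).1, fun x y => by
      simp only [Pi.add_apply, (L.hom i).2, (L.hom j).2]
      ring⟩
  obtain ⟨N1, o1, z1, r1⟩ := ok_cup (L.hom 0) (L.hom 1) L.c01
  obtain ⟨N2, o2, z2, r2⟩ := ok_cup (L.hom 0) (L.hom 2) L.c02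
  obtain ⟨N3, o3, -, r3⟩ := ok_cup (L.hom 1) (L.hom 1) L.c11
  obtain ⟨N4, o4, -, r4⟩ := ok_cup (L.hom 2) (L.hom 2) L.c22
  obtain ⟨N5, o5, -, r5⟩ := ok_cup (ad 0 1) (ad 0 2) L.cmx
  choose V o6 r6 using fun i => ok_cyc χ1 (χ3 i)
  obtain ⟨S, hS⟩ : ∃ S : {N : Subgroup G // Ok N} → Set Wd, ∀ N w, w ∈ S N ↔ ev g w ∈ N.1 ∧
      ((∀ j, mA j w = 0) ∧ ∀ i j, mC i j w = if i = hp j then 1 else 0) ∧
      ∀ j, fx (fun i => χ (g i)) j w = 0 := ⟨fun N => {w | _}, fun _ _ => Iff.rfl⟩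
  have ne : ∀ N, (S N).Nonempty := fun N => by
    obtain ⟨w, ⟨⟨⟨⟨⟨⟨⟨⟨h0, h1⟩, h2⟩, h3⟩, h4⟩, h5⟩, h6⟩, h7⟩, h8⟩, hw⟩ := ex00 L
      ((((((((N.2.inf o1).inf o2).inf o3).inf o4).inf o5).inf (o6 0)).inf (o6 1)).inf (o6 2))
      fun x hx => (z1 x hx.1.1.1.1.1.1.1.2).1
    have hA : ∀ j, mA j w = 0 := fun j => by
      rw [← a_ev L]
      fin_cases j
      · exact (z1 _ h1).1
      · exact (z1 _ h1).2
      · exact (z2 _ h2).2
    have c1 := r1 g w h1 hA
    have c2 := r2 g w h2 hA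
    have c3 := r3 g w h3 hA
    have c4 := r4 g w h4 hA
    have c5 := r5 g w h5 hA
    simp [Fin.sum_univ_three, L.dual] at c1 c2 c3 c4 c5
    have s1 := mC_sym (show (0 : Fin 3) ≠ 1 by decide) w
    have s2 := mC_sym (show (0 : Fin 3) ≠ 2 by decide) w
    have s3 := mC_sym (show (1 : Fin 3) ≠ 2 by decide) w
    rw [hA, zero_mul] at s1 s2 s3
    rw [c1, zero_add] at s1
    rw [c2, zero_add] at s2
    rw [hw, c2, s1] at c5
    have d1 : ∀ t : ZMod 2, 1 + 0 + (0 + t) = 0 → t = 1 := by decide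
    have d2 : ∀ t : ZMod 2, 1 + t = 0 → t = 1 := by decide
    have c6 := d1 _ c5
    rw [c6] at s3
    have c7 := d2 _ s3
    refine ⟨w, (hS N w).2 ⟨h0, ⟨hA, fun i j => ?_⟩, lin (m := fun i j => u i (g j))
      (fun i j => by rw [χ4, L.dual]) fun i => ?_⟩⟩
    · fin_cases i <;> fin_cases j <;> simp [hp, *]
    · rw [← coc_ev (χ3 i) χ.map_one]
      fin_cases i
      · exact r6 _ _ h6
      · exact r6 _ _ h7
      · exact r6 _ _ h8
  haveI : Nonempty {N : Subgroup G // Ok N} := ⟨⟨N1, o1⟩⟩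
  haveI : (⨅ N, 𝓟 (S N)).NeBot := iInf_neBot_of_directed'
    (fun N N' => ⟨⟨N.1 ⊓ N'.1, N.2.inf N'.2⟩,
      principal_mono.2 fun w hw => (hS _ _).2 ⟨((hS _ _).1 hw).1.1, ((hS _ _).1 hw).2⟩,
      principal_mono.2 fun w hw => (hS _ _).2 ⟨((hS _ _).1 hw).1.2, ((hS _ _).1 hw).2⟩⟩)
    fun N => principal_neBot_iff.2 (ne N)
  have mem : ∀ N, ∀ᶠ w in (Ultrafilter.of (⨅ N, 𝓟 (S N)) : Filter Wd), w ∈ S N := fun N =>
    Ultrafilter.of_le _ (mem_iInf_of_mem N (mem_principal_self _))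
  refine ⟨Ultrafilter.of (⨅ N, 𝓟 (S N)), ⟨(mem ⟨N1, o1⟩).mono fun w hw => ((hS _ _).1 hw).2.1,
    fun i => χ (g i), fun i => ?_, χ2, (mem ⟨N1, o1⟩).mono fun w hw => ((hS _ _).1 hw).2.2⟩,
    fun M _ ρ hρ => ⟨(mem ⟨_, ok_ker hρ⟩).mono fun w hw => ?_, fun x => ?_⟩⟩
  · have sq : ∀ s t : ZMod 8, s * t = 1 → s * s = 1 := by decide
    exact sq _ (χ (g i)⁻¹) (by rw [← map_mul, mul_inv_cancel, map_one])
  · rw [ev_map]
    exact ((hS _ _).1 hw).1
  · obtain ⟨w, hw⟩ := gen L (ok_ker hρ) x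
    refine ⟨w, ?_⟩
    rw [ev_map, ← mul_inv_cancel_left (ev g w) x, map_mul, MonoidHom.mem_ker.1 hw, mul_one]

end Vale.Agent.P022D.L2
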