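import Vale.Agent.P022D.L2.Pt

/-! # P022, block L2: words, characters and exponents -/

set_option linter.all false

noncomputable section

namespace Vale.Agent.P022D.L2

open Filter

namespace Sng

theorem fx_map {R S : Type} [CommRing R] [CommRing S] (φ : R →+* S) (e : Fin 3 → R) (j : Fin 3)
    (w : Wd) : φ (fx e j w) = fx (fun i => φ (e i)) j w := by
  induction w with
  | nil => simp [fx]
  | cons i w ih =>
    simp only [fx, map_add, map_mul, ih]
    split_ifs <;> simp

theorem mA_cons (j k : Fin 3) (w : Wd) : mA j (k :: w) = (if k = j then 1 else 0) + mA j w := by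
  simp only [mA, fx, one_mul]

theorem step {R : Type} [CommRing R] (π : R →+* ZMod 2) (ψ : ZMod 2 → R)
    (h0 : ψ 0 = 0) (ha : ∀ x y, ψ (x + y) = ψ x + ψ y) (hm : ∀ x f, ψ x * f = ψ (x * π f))
    (e e' : Fin 3 → R) (he : ∀ i, π (e i) = 1) (he' : ∀ i, π (e' i) = 1) (δ : Fin 3 → ZMod 2)
    (hd : ∀ i, e i - e' i = ψ (δ i)) (j : Fin 3) (w : Wd) :
    fx e j w - fx e' j w = ψ (∑ i, mC i j w * δ i) := by
  induction w with
  | nil => simp [fx, mC, h0]
  | cons k w ih =>
    have h1 : π (fx e' j w) = mA j w := by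
      rw [fx_map, mA, funext he']
    have h2 : ∑ i, mC i j (k :: w) * δ i = ∑ i, mC i j w * δ i + δ k * mA j w := by
      simp only [mC, add_mul, Finset.sum_add_distrib]
      congr 1
      rw [Finset.sum_eq_single k]
      · rw [if_pos rfl, mul_comm]
      · intro i _ hi
        rw [if_neg (Ne.symm hi), zero_mul]
      · simp
    have h3 : fx e j (k :: w) - fx e' j (k :: w) =
        (fx e j w - fx e' j w) * e k + (e k - e' k) * fx e' j w := by
      simp only [fx]; ring
    rw [h3, ih, hd, hm, hm, he, mul_one, h1, h2, ha]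

theorem step' {R : Type} [CommRing R] (π : R →+* ZMod 2) (ψ : ZMod 2 → R)
    (h0 : ψ 0 = 0) (h1 : ψ 1 ≠ 0) (ha : ∀ x y, ψ (x + y) = ψ x + ψ y)
    (hm : ∀ x f, ψ x * f = ψ (x * π f))
    (e e' : Fin 3 → R) (he : ∀ i, π (e i) = 1) (he' : ∀ i, π (e' i) = 1)
    (hd : ∀ i, ∃ δ, e i - e' i = ψ δ) (w : Wd)
    (hw : ∀ i j, mC i j w = if i = hp j then 1 else 0) (hf : ∀ j, fx e j w = 0)
    (hf' : ∀ j, fx e' j w = 0) (i : Fin 3) : e i = e' i := by
  choose δ hδ using hd
  have h := step π ψ h0 ha hm e e' he he' δ hδ (hp i) w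
  have hh : ∀ i, hp (hp i) = i := by decide
  rw [hf, hf', sub_self, Finset.sum_eq_single i] at h
  · rw [hw, hh, if_pos rfl, one_mul] at h
    rw [← sub_eq_zero, hδ, ← h]
  · intro k _ hk
    rw [hw, hh, if_neg hk, zero_mul]
  · simp

/-- two characters mod 8 which kill the Fox derivatives of a relation of Hilbert type agree -/
theorem uniq8 (e e' : Fin 3 → ZMod 8) (he : ∀ i, e i * e i = 1) (he' : ∀ i, e' i * e' i = 1)
    (w : Wd) (hw : ∀ i j, mC i j w = if i = hp j then 1 else 0) (hf : ∀ j, fx e j w = 0)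
    (hf' : ∀ j, fx e' j w = 0) (i : Fin 3) : e i = e' i := by
  let c4 : ZMod 8 →+* ZMod 4 := ZMod.castHom (by norm_num) (ZMod 4)
  let c2 : ZMod 8 →+* ZMod 2 := ZMod.castHom (by norm_num) (ZMod 2)
  let c42 : ZMod 4 →+* ZMod 2 := ZMod.castHom (by norm_num) (ZMod 2)
  have o2 : ∀ a : ZMod 8, a * a = 1 → c2 a = 1 := by decide
  have o4 : ∀ a : ZMod 8, a * a = 1 → c42 (c4 a) = 1 := by decide
  have d4 : ∀ a b : ZMod 8, a * a = 1 → b * b = 1 →
      ∃ δ : ZMod 2, c4 a - c4 b = if δ = 0 then 0 else 2 := by decide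
  have d8 : ∀ a b : ZMod 8, c4 a = c4 b → ∃ δ : ZMod 2, a - b = if δ = 0 then 0 else 4 := by
    decide
  have A := step' c42 (fun δ => if δ = 0 then 0 else 2) (by decide) (by decide) (by decide)
    (by decide) (fun i => c4 (e i)) (fun i => c4 (e' i)) (fun i => o4 _ (he i))
    (fun i => o4 _ (he' i)) (fun i => d4 _ _ (he i) (he' i)) w hw
    (fun j => by rw [← fx_map, hf, map_zero]) (fun j => by rw [← fx_map, hf', map_zero])
  exact step' c2 (fun δ => if δ = 0 then 0 else 4) (by decide) (by decide) (by decide)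
    (by decide) e e' (fun i => o2 _ (he i)) (fun i => o2 _ (he' i))
    (fun i => d8 _ _ (A i)) w hw hf hf' i

/-- the sign character -/
def sn (a : Fin 3 → ZMod 2) (i : Fin 3) : ℤ := if a i = 0 then 1 else -1

/-- parity of a word -/
def par (a : Fin 3 → ZMod 2) (w : Wd) : ZMod 2 := ∑ j, a j * mA j w

theorem par_nil (a : Fin 3 → ZMod 2) : par a [] = 0 := by simp [par, mA, fx]

theorem par_cons (a : Fin 3 → ZMod 2) (i : Fin 3) (w : Wd) : par a (i :: w) = a i + par a w := by
  simp only [par, mA_cons, mul_add, Finset.sum_add_distrib]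
  congr 1
  rw [Finset.sum_eq_single i]
  · rw [if_pos rfl, mul_one]
  · intro j _ hj
    rw [if_neg (Ne.symm hj), mul_zero]
  · simp

theorem fund (a : Fin 3 → ZMod 2) (w : Wd) :
    ∑ j, fx (sn a) j w * (sn a j - 1) = if par a w = 0 then 0 else -2 := by
  induction w with
  | nil => simp [fx, par_nil]
  | cons i w ih =>
    have h : ∑ j, (if i = j then 1 else 0) * (sn a j - 1) = sn a i - 1 := by
      rw [Finset.sum_eq_single i]
      · rw [if_pos rfl, one_mul]
      · intro j _ hj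
        rw [if_neg (Ne.symm hj), zero_mul]
      · simp
    simp only [fx, add_mul, Finset.sum_add_distrib, mul_assoc, ← Finset.mul_sum, h, ih, par_cons]
    have z : ∀ x : ZMod 2, x = 0 ∨ x = 1 := by decide
    have o : (1 : ZMod 2) + 1 = 0 := by decide
    rcases z (a i) with h1 | h1 <;> rcases z (par a w) with h2 | h2 <;> simp [sn, h1, h2, o]

theorem words {Γ C : Type} [Group Γ] [CommGroup C] (κ : C →* Γ) (s : Γ) (t : Fin 3 → C)
    (a : Fin 3 → ZMod 2) (x : Fin 3 → Γ) (hx : ∀ i, x i = κ (t i) * if a i = 0 then 1 else s)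
    (hs : ∀ i, a i ≠ 0 → s * s = 1 ∧ ∀ y, s * κ y = κ y⁻¹ * s) (w : Wd) :
    ev x w = κ (∏ j, t j ^ fx (sn a) j w) * if par a w = 0 then 1 else s := by
  induction w with
  | nil => simp [ev, fx, par_nil]
  | cons i w ih =>
    have h : ∏ j, t j ^ fx (sn a) j (i :: w) = t i * (∏ j, t j ^ fx (sn a) j w) ^ sn a i := by
      simp only [fx, zpow_add, Finset.prod_mul_distrib, mul_comm (sn a i), zpow_mul,
        Finset.prod_zpow]
      congr 1
      rw [Finset.prod_eq_single i]
      · rw [if_pos rfl, zpow_one]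
      · intro j _ hj
        rw [if_neg (Ne.symm hj), zpow_zero]
      · simp
    rw [Pt.ev_cons, ih, hx, h, par_cons, map_mul]
    by_cases h1 : a i = 0
    · simp only [sn, h1, if_true, mul_one, zpow_one, zero_add, mul_assoc]
    · obtain ⟨s1, s2⟩ := hs i h1
      have z : ∀ x y : ZMod 2, x ≠ 0 → (x + y = 0 ↔ ¬ y = 0) := by decide
      simp only [sn, h1, if_false, zpow_neg, zpow_one, z _ _ h1, mul_assoc]
      rw [← mul_assoc s, s2, mul_assoc]
      by_cases h2 : par a w = 0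
      · simp only [h2, if_true, not_true, if_false, mul_one]
      · simp only [h2, if_false, not_false_iff, if_true, s1]

theorem tor (v : Fin 3 → ZMod 8) (hv : v ≠ 0) : ∃ (k : ℕ) (i : Fin 3) (f : Fin 3 → ℕ),
    v i ≠ 0 ∧ f i = 1 ∧ ∀ {C : Type} [CommGroup C] (t : Fin 3 → C) (E : Fin 3 → ℤ),
      (∀ j, (E j : ZMod 8) = v j) → ∃ W : C, ∏ j, t j ^ E j = ((∏ j, t j ^ f j) * W ^ 2) ^ 2 ^ k := by
  have hk : ∃ k : ℕ, k ≤ 2 ∧ (∀ j, 2 ^ k ∣ (v j).val) ∧ ∃ i, (v i).val / 2 ^ k % 2 = 1 := by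
    have b : ∀ j, (v j).val < 8 := fun j => ZMod.val_lt _
    by_cases h0 : ∃ i, (v i).val % 2 = 1
    · exact ⟨0, by norm_num, fun j => by simp, by simpa using h0⟩
    push Not at h0
    by_cases h1 : ∃ i, (v i).val / 2 % 2 = 1
    · exact ⟨1, by norm_num, fun j => by have := h0 j; omega, by simpa using h1⟩
    push Not at h1
    refine ⟨2, le_rfl, fun j => by have := h0 j; have := h1 j; omega, ?_⟩
    obtain ⟨i, hi⟩ := Function.ne_iff.1 hv
    have : (v i).val ≠ 0 := fun e => hi ((ZMod.val_eq_zero _).1 e)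
    exact ⟨i, by have := h0 i; have := h1 i; have := b i; omega⟩
  obtain ⟨k, hk, hd, i, hi⟩ := hk
  refine ⟨k, i, fun j => (v j).val / 2 ^ k % 2, fun e => by simp [e] at hi, hi, ?_⟩
  intro C _ t E hE
  have hg : ∀ j, ∃ g : ℤ, E j = ((((v j).val / 2 ^ k % 2 : ℕ) : ℤ) + g * 2) * (2 ^ k : ℕ) := by
    intro j
    have h1 : ((E j - ((v j).val : ℤ) : ℤ) : ZMod 8) = 0 := by
      rw [Int.cast_sub, hE, Int.cast_natCast, ZMod.natCast_zmod_val, sub_self]
    rw [ZMod.intCast_zmod_eq_zero_iff_dvd] at h1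
    have h2 := hd j
    generalize (v j).val = n at h1 h2 ⊢
    refine ⟨(E j / 2 ^ k - ((n / 2 ^ k % 2 : ℕ) : ℤ)) / 2, ?_⟩
    interval_cases k <;> simp only [pow_zero, pow_one, Nat.cast_ofNat, Nat.cast_one,
      show (2 : ℕ) ^ 2 = 4 from rfl, show (2 : ℤ) ^ 2 = 4 from rfl] at h1 h2 ⊢ <;> omega
  choose g hg using hg
  refine ⟨∏ j, t j ^ g j, ?_⟩
  rw [← Finset.prod_pow, ← Finset.prod_mul_distrib, ← Finset.prod_pow]
  refine Finset.prod_congr rfl fun j _ => ?_
  rw [hg j, zpow_mul, zpow_natCast, zpow_add, zpow_natCast, zpow_mul, zpow_ofNat]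

/-- **the exponent lemma** -/
theorem expo {U : Ultrafilter Wd} (hU : Rel U) (a : Fin 3 → ZMod 2) (i0 : Option (Fin 3))
    (h0 : ∀ i, i0 = some i → a i ≠ 0) : ∃ (k : ℕ) (i : Fin 3) (f : Fin 3 → ℕ),
    i0 ≠ some i ∧ f i = 1 ∧ ∀ᶠ w in (U : Filter Wd), par a w = 0 ∧
      ∀ {C : Type} [CommGroup C] (t : Fin 3 → C), (∀ j, i0 = some j → t j = 1) →
        ∃ W : C, ∏ j, t j ^ fx (sn a) j w = ((∏ j, t j ^ f j) * W ^ 2) ^ 2 ^ k := by
  classical
  let E : Wd → Fin 3 → ℤ := fun w j => if i0 = some j then 0 else fx (sn a) j w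
  obtain ⟨v, hv⟩ := (U.map fun w j => (E w j : ZMod 8)).eq_pure_of_finite
  have hv' : ∀ᶠ w in (U : Filter Wd), (fun j => (E w j : ZMod 8)) = v := by
    have : {v} ∈ U.map fun w j => (E w j : ZMod 8) := by rw [hv]; simp
    exact this
  have hpar : ∀ᶠ w in (U : Filter Wd), par a w = 0 := hU.mag.mono fun w h => by
    simp [par, h.1]
  obtain ⟨e, he, ⟨i1, hi1⟩, hw⟩ := hU.ori
  have hne : v ≠ 0 := by
    rintro rfl
    obtain ⟨w, ⟨⟨⟨-, hC⟩, hp⟩, hf⟩, hE⟩ := (((hU.mag.and hpar).and hw).and hv').exists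
    have hz : ∀ j, (8 : ℤ) ∣ fx (sn a) j w := by
      have h1 : ∀ j, i0 ≠ some j → (8 : ℤ) ∣ fx (sn a) j w := fun j hj => by
        have := congrFun hE j
        simp only [E, if_neg hj, Pi.zero_apply] at this
        exact (ZMod.intCast_zmod_eq_zero_iff_dvd _ 8).1 this
      intro j
      by_cases hj : i0 = some j
      · have h2 := fund a w
        rw [if_pos hp, ← Finset.add_sum_erase _ _ (Finset.mem_univ j)] at h2
        have h3 : (16 : ℤ) ∣ ∑ l ∈ Finset.univ.erase j, fx (sn a) l w * (sn a l - 1) := by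
          refine Finset.dvd_sum fun l hl => ?_
          have : i0 ≠ some l := fun e => Finset.ne_of_mem_erase hl (by
            rw [hj] at e; exact (Option.some.inj e).symm)
          refine mul_dvd_mul (h1 l this) (show (2 : ℤ) ∣ sn a l - 1 from ?_)
          unfold sn; split_ifs <;> norm_num
        have h4 : sn a j = -1 := if_neg (h0 j hj)
        rw [h4] at h2
        omega
      · exact h1 j hj
    have h5 := uniq8 e (fun i => (sn a i : ZMod 8)) he (fun i => by
      unfold sn; split_ifs <;> norm_num) w hC hf (fun j => by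
        have := fx_map (Int.castRingHom (ZMod 8)) (sn a) j w
        simp only [eq_intCast] at this
        rw [← this]
        exact (ZMod.intCast_zmod_eq_zero_iff_dvd _ 8).2 (hz j)) i1
    unfold sn at h5
    split_ifs at h5
    · exact hi1.1 (by simpa using h5)
    · exact hi1.2 (by simpa using h5)
  obtain ⟨k, i, f, h1, h2, h3⟩ := tor v hne
  refine ⟨k, i, f, fun e => ?_, h2, (hpar.and hv').mono fun w h => ⟨h.1, ?_⟩⟩
  · obtain ⟨w, hw⟩ := hv'.exists
    apply h1
    rw [← congrFun hw i]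
    simp [E, e]
  · intro C _ t ht
    obtain ⟨W, hW⟩ := h3 t (E w) (congrFun h.2)
    refine ⟨W, ?_⟩
    rw [← hW]
    refine Finset.prod_congr rfl fun j _ => ?_
    by_cases hj : i0 = some j
    · rw [ht j hj, one_zpow, one_zpow]
    · simp only [E, if_neg hj]

end Sng

end Vale.Agent.P022D.L2
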